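import Vale.Agent.P318.H918.Core
import Vale.Agent.P318.H653.NodeInst
import Vale.Agent.P318.H283.PDef

/-!
# P318: composition of pair views with codes for spaces of small dimension

`π : 𝒱 → (X →ₗ X)` is a family of views as in `Core` (lossless on average, consistent families
glue).  If every space of dimension at most `d1` has a code (`H283.CodeP`), then `X` has a code
whose views are the views of the small codes composed with the pair views.
-/

open Finset

namespace Vale.Agent.P318.H918

open Vale.Agent.P318 Vale.Agent.P318.H937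
open Vale.Agent.P318.H283 (V2 VLoss HasCond CodeFor CodeP)

/-- factorisation of a linear map through a coordinate space -/
theorem exists_factor {X Z : Type} [AddCommGroup X] [Module (ZMod 2) X] [Finite X]
    [AddCommGroup Z] [Module (ZMod 2) Z] (L : X →ₗ[ZMod 2] Z) (r : ℕ)
    (hr : Module.finrank (ZMod 2) (LinearMap.range L) = r) :
    ∃ (p : X →ₗ[ZMod 2] (Fin r → ZMod 2)) (j : (Fin r → ZMod 2) →ₗ[ZMod 2] Z),
      Function.Surjective p ∧ Function.Injective j ∧ j ∘ₗ p = L := by
  have : Module.Finite (ZMod 2) X := Module.Finite.of_finite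
  let b := (Module.finBasisOfFinrankEq (ZMod 2) (LinearMap.range L) hr).equivFun
  refine ⟨b.toLinearMap ∘ₗ L.rangeRestrict, (LinearMap.range L).subtype ∘ₗ b.symm.toLinearMap,
    ?_, ?_, ?_⟩
  · intro y
    obtain ⟨z, hz⟩ := b.surjective y
    obtain ⟨x, hx⟩ := LinearMap.surjective_rangeRestrict L z
    exact ⟨x, by rw [LinearMap.comp_apply, hx]; exact hz⟩
  · intro y y' h
    have h1 : b.symm y = b.symm y' := Subtype.ext h
    exact b.symm.injective h1
  · ext x
    simp

/-- push-forward under an injective map is injective -/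
theorem push_injective {X Y : Type} [Fintype X] [Fintype Y] [DecidableEq X] [DecidableEq Y]
    {f : X → Y} (hf : Function.Injective f) {μ ν : X → ZMod 2}
    (h : H937.push f μ = H937.push f ν) : μ = ν := by
  rcases isEmpty_or_nonempty X with hX | hX
  · funext x
    exact (hX.false x).elim
  · have h1 := congrArg (H937.push (Function.invFun f)) h
    rw [H653.push_push, H653.push_push, Function.invFun_comp hf] at h1
    exact (H653.push_id μ).symm.trans (h1.trans (H653.push_id ν))

/-- Small measures which agree under all maps of a lossless family are equal. -/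
theorem eq_of_lossless {Y Z : Type} [Fintype Y] [Fintype Z] [DecidableEq Y] [DecidableEq Z]
    {q : ℕ} (hq : 0 < q) (F : Fin q → Y → Z) {W0 : ℕ} {e : ℝ} (he : e < 1 / 2)
    (hF : Lossless univ F W0 e) {μ ν : Y → ZMod 2} (hs : sz μ + sz ν ≤ W0)
    (h : ∀ v, H937.push (F v) μ = H937.push (F v) ν) : μ = ν := by
  have : NeZero q := ⟨hq.ne'⟩
  refine sub_eq_zero.1 ?_
  refine H653.eq_zero_of_lossless univ univ_nonempty F W0 e he hF (μ - ν)
    ((H653.sz_sub_le μ ν).trans hs) fun c _ => ?_
  have h1 : μ - ν = μ + ν := by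
    funext y
    simp only [Pi.sub_apply, Pi.add_apply]
    exact CharTwo.sub_eq_add _ _
  rw [h1, H653.push_add, h c]
  exact H770.add_self_meas _

section comp

variable {X : Type} [AddCommGroup X] [Module (ZMod 2) X] [Fintype X] [DecidableEq X]
variable {𝒱 : Type} [Fintype 𝒱]

theorem comp_exact (π : 𝒱 → X →ₗ[ZMod 2] X) (h𝒱 : 0 < Fintype.card 𝒱)
    {W W' W2 W0 h a D N q d1 : ℕ} {e : ℝ}
    (hL : Lossy (fun T (p : X × X) => (π T p.1, π T p.2)) W')
    (hG : Glue π (2 * (2 * W)) W2) (hW2 : W2 ≤ W') (hWW' : 3 * (2 * W) ≤ W') (h2 : 2 ≤ W')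
    (hd1 : ∀ T0 T, Module.finrank (ZMod 2) (LinearMap.range ((π T0).prod (π T))) ≤ d1)
    (hcode : CodeP a D W0 h d1 N)
    (hq : 0 < q) (he : e < 1 / 2) (hcond : HasCond a W0 d1 q e)
    (hW0 : h * W ≤ W0) (hW4 : 4 * W ≤ W0) {K : Type} [Fintype K] (ρ : K → X →ₗ[ZMod 2] (Fin a → ZMod 2))
    (hρ : ∀ k, ∃ T0 T, ∃ r : X × X →ₗ[ZMod 2] (Fin a → ZMod 2),
      r ∘ₗ (π T0).prod (π T) = ρ k) :
    ∃ (ι : Type) (_ : Fintype ι) (τ : ι → X →ₗ[ZMod 2] (Fin D → ZMod 2)),
      Fintype.card ι ≤ Fintype.card 𝒱 ^ 2 * (N * (1 + (Fintype.card 𝒱 ^ 2 * q +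
        Fintype.card K))) ∧
      ∀ B : X → ZMod 2, (∀ i, sz (push (τ i) B) ≤ W) →
        ∃ U : X → ZMod 2, 361 * sz U ≤ 800 * W ∧ (∀ i, push (τ i) U = push (τ i) B) ∧
          ∀ k, push (ρ k) U = push (ρ k) B := by
  classical
  -- the spaces of the pair views
  have hfac := fun T : 𝒱 × 𝒱 => exists_factor ((π T.1).prod (π T.2)) _ rfl
  choose p j hp hj hjp using hfac
  have hr : ∀ T : 𝒱 × 𝒱,
      Module.finrank (ZMod 2) (LinearMap.range ((π T.1).prod (π T.2))) ≤ d1 :=
    fun T => hd1 T.1 T.2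
  have hr' : ∀ T : 𝒱 × 𝒱, Module.finrank (ZMod 2) (Fin (Module.finrank (ZMod 2)
      (LinearMap.range ((π T.1).prod (π T.2)))) → ZMod 2) ≤ d1 := by
    intro T
    rw [Module.finrank_fin_fun]
    exact hr T
  choose F hF0 using fun T : 𝒱 × 𝒱 => hcond _ (hr' T)
  have hF := fun T : 𝒱 × 𝒱 => (hF0 T).single
  -- connecting maps
  set Ψ : ∀ T T' : 𝒱 × 𝒱, (Fin (Module.finrank (ZMod 2)
      (LinearMap.range ((π T.1).prod (π T.2)))) → ZMod 2) →ₗ[ZMod 2]
      (Fin (Module.finrank (ZMod 2) (LinearMap.range ((π T'.1).prod (π T'.2)))) → ZMod 2) :=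
    fun T T' => if h : ∃ ψ, ψ ∘ₗ p T = p T' then Classical.choose h else 0 with hΨ
  have hΨ1 : ∀ T T' ψ, ψ ∘ₗ p T = p T' → Ψ T T' = ψ := by
    intro T T' ψ h
    have h1 : ∃ ψ, ψ ∘ₗ p T = p T' := ⟨ψ, h⟩
    have h2 : Ψ T T' ∘ₗ p T = p T' := by
      simp only [hΨ]
      rw [dif_pos h1]
      exact Classical.choose_spec h1
    refine LinearMap.ext fun y => ?_
    obtain ⟨x, rfl⟩ := hp T y
    have h3 := LinearMap.congr_fun h2 x
    have h4 := LinearMap.congr_fun h x
    rw [LinearMap.comp_apply] at h3 h4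
    rw [h3, h4]
  set r : ∀ (T : 𝒱 × 𝒱) (_k : K), (Fin (Module.finrank (ZMod 2)
      (LinearMap.range ((π T.1).prod (π T.2)))) → ZMod 2) →ₗ[ZMod 2] (Fin a → ZMod 2) :=
    fun T k => if h : ∃ r, r ∘ₗ p T = ρ k then Classical.choose h else 0 with hrdef
  have hr1 : ∀ T k, (∃ r, r ∘ₗ p T = ρ k) → r T k ∘ₗ p T = ρ k := by
    intro T k h1
    simp only [hrdef]
    rw [dif_pos h1]
    exact Classical.choose_spec h1
  -- the tests of the space of the pair view `T`
  set R : ∀ T : 𝒱 × 𝒱, (((𝒱 × 𝒱) × Fin q) ⊕ K) → (Fin (Module.finrank (ZMod 2)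
      (LinearMap.range ((π T.1).prod (π T.2)))) → ZMod 2) →ₗ[ZMod 2] (Fin a → ZMod 2) :=
    fun T => Sum.elim (fun u => F u.1 u.2 ∘ₗ Ψ T u.1) (r T) with hR
  have hC := fun T : 𝒱 × 𝒱 => hcode _ (hr' T) (((𝒱 × 𝒱) × Fin q) ⊕ K) (R T)
  choose ι hι τ hτ1 hτ2 using hC
  refine ⟨(Σ T : 𝒱 × 𝒱, ι T), inferInstance, fun i => τ i.1 i.2 ∘ₗ p i.1, ?_, ?_⟩
  · rw [Fintype.card_sigma]
    refine (sum_le_sum fun T _ => hτ1 T).trans (le_of_eq ?_)
    rw [sum_const, card_univ, smul_eq_mul]
    simp only [Fintype.card_sum, Fintype.card_prod, Fintype.card_fin]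
    ring
  · intro B hB
    have hM := fun T : 𝒱 × 𝒱 => hτ2 T W hW0 (push (p T) B) (by
      intro i
      have h1 := hB ⟨T, i⟩
      rw [H653.push_push]
      exact h1)
    choose M hMs hMτ hMR using hM
    -- consistency of the local measures
    have hΨM : ∀ T T' ψ, ψ ∘ₗ p T = p T' → push ψ (M T) = M T' := by
      intro T T' ψ h
      have h0 := hΨ1 T T' ψ h
      have h0' := hΨ1 T' T' LinearMap.id (LinearMap.id_comp _)
      refine eq_of_lossless hq (fun v x => F T' v x) he (hF T') ?_ fun v => ?_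
      · have h1 := H770.sz_push_le ψ (M T)
        have h2 := hMs T
        have h3 := hMs T'
        have h4 : sz (push ψ (M T)) ≤ sz (M T) := h1
        omega
      · have h1 : push (R T (Sum.inl (T', v))) (M T) =
            push (R T (Sum.inl (T', v))) (push (p T) B) := hMR T (Sum.inl (T', v))
        have h2 : push (R T' (Sum.inl (T', v))) (M T') =
            push (R T' (Sum.inl (T', v))) (push (p T') B) := hMR T' (Sum.inl (T', v))
        have h3 : R T (Sum.inl (T', v)) = F T' v ∘ₗ ψ := by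
          simp only [hR, Sum.elim_inl]
          rw [h0]
        have h4 : R T' (Sum.inl (T', v)) = F T' v := by
          simp only [hR, Sum.elim_inl]
          rw [h0', LinearMap.comp_id]
        rw [h3] at h1
        rw [h4] at h2
        rw [H653.push_push] at h1 h2 ⊢
        refine Eq.trans h1 (Eq.trans ?_ h2.symm)
        have h5 : (F T' v ∘ₗ ψ : _ → _) ∘ (p T) = (F T' v) ∘ (p T') := by
          rw [← h]
          rfl
        rw [h5]
    obtain ⟨U, hU1, hU2⟩ := pair_exact π (W := 2 * W) (W' := W') (W2 := W2) hL h𝒱 hG hW2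
      hWW' h2 (fun T0 T => push (j (T0, T)) (M (T0, T)))
      (fun T0 T => (H770.sz_push_le (j (T0, T)) (M (T0, T))).trans (hMs (T0, T)))
      (by
        intro T0 T x hx
        have h1 : x ∈ H770.sup (H770.push (j (T0, T)) (M (T0, T))) := H770.mem_sup.2 hx
        obtain ⟨z, _, hz⟩ := mem_image.1 (H770.sup_push_subset (j (T0, T)) (M (T0, T)) h1)
        obtain ⟨y, rfl⟩ := hp (T0, T) z
        refine ⟨y, ?_⟩
        rw [← hz]
        have h2 := LinearMap.congr_fun (hjp (T0, T)) y
        rw [LinearMap.comp_apply] at h2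
        rw [h2]
        rfl)
      (by
        intro T0 T T0' T' φ0 φ h0 h1
        -- the induced map
        have h2 : (φ0.prodMap φ) ∘ₗ ((π T0).prod (π T)) = (π T0').prod (π T') := by
          refine LinearMap.ext fun x => ?_
          have h3 := LinearMap.congr_fun h0 x
          have h4 := LinearMap.congr_fun h1 x
          exact Prod.ext h3 h4
        have h3 : ∃ ψ, j (T0', T') ∘ₗ ψ = (φ0.prodMap φ) ∘ₗ j (T0, T) := by
          obtain ⟨g, hg⟩ := LinearMap.exists_leftInverse_of_injective (j (T0', T'))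
            (LinearMap.ker_eq_bot.2 (hj (T0', T')))
          refine ⟨g ∘ₗ (φ0.prodMap φ) ∘ₗ j (T0, T), ?_⟩
          refine LinearMap.ext fun y => ?_
          obtain ⟨x, rfl⟩ := hp (T0, T) y
          have h4 : (φ0.prodMap φ) (j (T0, T) (p (T0, T) x)) =
              j (T0', T') (p (T0', T') x) := by
            have h5 := LinearMap.congr_fun (hjp (T0, T)) x
            have h6 := LinearMap.congr_fun (hjp (T0', T')) x
            have h7 := LinearMap.congr_fun h2 x
            rw [LinearMap.comp_apply] at h5 h6 h7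
            rw [h5, h6]
            exact h7
          have h8 := LinearMap.congr_fun hg (p (T0', T') x)
          rw [LinearMap.comp_apply] at h8
          change j (T0', T') (g ((φ0.prodMap φ) (j (T0, T) (p (T0, T) x)))) =
            (φ0.prodMap φ) (j (T0, T) (p (T0, T) x))
          rw [h4, h8]
          rfl
        obtain ⟨ψ, hψ⟩ := h3
        have h4 : ψ ∘ₗ p (T0, T) = p (T0', T') := by
          refine LinearMap.ext fun x => hj (T0', T') ?_
          have h5 := LinearMap.congr_fun (hjp (T0, T)) x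
          have h6 := LinearMap.congr_fun (hjp (T0', T')) x
          have h7 := LinearMap.congr_fun h2 x
          have h8 := LinearMap.congr_fun hψ (p (T0, T) x)
          rw [LinearMap.comp_apply] at h5 h6 h7 h8
          rw [LinearMap.comp_apply, h8, LinearMap.comp_apply, h5, h6]
          exact h7
        have h5 := hΨM (T0, T) (T0', T') ψ h4
        change push (Prod.map φ0 φ) (push (j (T0, T)) (M (T0, T))) =
          push (j (T0', T')) (M (T0', T'))
        rw [← h5, H653.push_push, H653.push_push]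
        have h6 : (Prod.map φ0 φ) ∘ (j (T0, T)) = (j (T0', T')) ∘ ψ := by
          funext y
          exact (LinearMap.congr_fun hψ y).symm
        rw [h6])
    have hpU : ∀ T : 𝒱 × 𝒱, push (p T) U = M T := by
      intro T
      refine push_injective (hj T) ?_
      rw [H653.push_push]
      have h1 : push (fun x => (π T.1 x, π T.2 x)) U = push (j T) (M T) := hU2 T.1 T.2
      rw [← h1]
      have h2 : (j T) ∘ (p T) = fun x => (π T.1 x, π T.2 x) := by
        funext x
        exact LinearMap.congr_fun (hjp T) x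
      rw [h2]
    have hU1' : 361 * sz U ≤ 400 * (2 * W) := hU1
    refine ⟨U, by omega, ?_, ?_⟩
    · rintro ⟨T, i⟩
      have h1 := hMτ T i
      rw [H653.push_push] at h1
      have h2 : push (τ T i ∘ₗ p T) U = push (τ T i) (push (p T) U) := by
        rw [H653.push_push]
        rfl
      rw [h2, hpU T]
      exact h1
    · intro k
      obtain ⟨T0, T, r0, hr0⟩ := hρ k
      have h1 : ∃ r, r ∘ₗ p (T0, T) = ρ k := by
        refine ⟨r0 ∘ₗ j (T0, T), ?_⟩
        rw [LinearMap.comp_assoc, hjp (T0, T)]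
        exact hr0
      have h2 := hr1 (T0, T) k h1
      have h3 := hMR (T0, T) (Sum.inr k)
      have h4 : R (T0, T) (Sum.inr k) = r (T0, T) k := rfl
      rw [h4, H653.push_push] at h3
      have h5 : push (ρ k) U = push (r (T0, T) k) (push (p (T0, T)) U) := by
        rw [H653.push_push, ← h2]
        rfl
      have h6 : push (ρ k) B = push (r (T0, T) k ∘ p (T0, T)) B := by
        rw [← h2]
        rfl
      rw [h5, hpU (T0, T), h3, h6]

end comp

end Vale.Agent.P318.H918
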