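import Vale.Agent.P318.H918.Tree4
import Vale.Agent.P318.H682.GoodOf

/-!
# P318: the good code on the tree space with views of dimension `O(log)`
-/

open Finset

namespace Vale.Agent.P318.H918

open Vale.Agent.P318 Vale.Agent.P318.H937
open Vale.Agent.P318.H283 (V2 VLoss HasCond CodeFor CodeP)
open Vale.Agent.P318.H269 (ViewT nonempty_view isView_empty finrank_range_prod_le)

section code

variable {X : Type} [AddCommGroup X] [Module (ZMod 2) X] [Fintype X] [DecidableEq X]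

/-- From an exact package (views `τ`, lossless family `ν`, hash family `hs`) to a good code. -/
theorem goodCode_of_pkg {ι Z Θ : Type} [Fintype ι] [Fintype Z] [Nonempty Z] [Fintype Θ]
    [Nonempty Θ] {a0 l D : ℕ} (κ d k W W' : ℕ) (pc : ℝ) (hcard : Fintype.card X = 2 ^ κ)
    (τ : ι → X →ₗ[ZMod 2] V2 D) (ν : Z → X →ₗ[ZMod 2] V2 a0) (hs : Θ → X →ₗ[ZMod 2] V2 l)
    (hD : l + a0 ≤ D) (hloss : Lossless univ (fun z x => ν z x) W' (1 / 40))
    (hcoll : ∀ x x' : X, x ≠ x' → ((univ.filter fun θ => hs θ x = hs θ x').card : ℝ) ≤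
      pc * Fintype.card Θ)
    (hk : k ≤ W') (hW : 20 * ((Fintype.card ι + 1) * d) ≤ W)
    (hex : ∀ B : X → ZMod 2, (∀ i, sz (push (τ i) B) ≤ W) → ∃ U : X → ZMod 2, sz U ≤ W' ∧
      (∀ i, push (τ i) U = push (τ i) B) ∧
      ∀ θ z, push (fun x => (hs θ x, ν z x)) U = push (fun x => (hs θ x, ν z x)) B)
    (Dd : ℕ) (hDd : ((Fintype.card ι + 1) + (Fintype.card Z + Fintype.card Θ * Fintype.card Z))
      * 2 ^ D ≤ Dd) :
    ∃ (V V1 : Submodule (ZMod 2) (X → ZMod 2)) (Γ : Type) (g : Γ → X → ZMod 2),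
      GoodCode X κ D d k Dd pc V V1 Γ g := by
  classical
  obtain ⟨I, hI⟩ := H986.exists_inj (Y := V2 a0) (k := D) (by
    rw [Module.finrank_fin_fun]; omega)
  obtain ⟨J, hJ⟩ := H986.exists_inj (Y := V2 l × V2 a0) (k := D) (by
    rw [Module.finrank_prod, Module.finrank_fin_fun, Module.finrank_fin_fun]
    exact hD)
  let en := Fintype.equivFin (V2 l)
  have hmain := H682.goodCode_of_exact (T := Option ι) (Z := Z) (Θ := Θ) κ d k W W'
    (Fintype.card (V2 l)) (1 / 40) pc hcard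
    (fun i => i.elim 0 τ) (fun z => I ∘ₗ ν z) (fun p => J ∘ₗ (hs p.1).prod (ν p.2))
    (fun θ x => en (hs θ x)) (by
      intro θ z x x' h
      have h1 := hJ h
      have h2 : hs θ x = hs θ x' := congrArg Prod.fst h1
      have h3 : ν z x = ν z x' := congrArg Prod.snd h1
      refine ⟨by rw [h2], ?_⟩
      change I (ν z x) = I (ν z x')
      rw [h3]) (by
      intro U hU
      have h1 := hloss U hU
      refine h1.trans (le_of_eq ?_)
      refine sum_congr rfl fun z _ => ?_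
      rw [← card_image_of_injective (U.image fun x => ν z x) hI, image_image]
      rfl) (by norm_num) (by
      intro x x' hxx
      have h1 := hcoll x x' hxx
      rw [Nat.card_eq_fintype_card (α := Θ), Nat.card_eq_fintype_card, Fintype.card_subtype]
      refine le_trans (le_of_eq ?_) h1
      congr 2
      ext θ
      simp only [mem_filter, mem_univ, true_and]
      exact en.injective.eq_iff) hk (by
      rw [Fintype.card_option]
      exact hW) (by
      intro B hB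
      obtain ⟨U, hU1, hU2, hU3⟩ := hex B (fun i => hB (some i))
      have hν : ∀ z, push (ν z) U = push (ν z) B := by
        intro z
        have h1 := congrArg (push Prod.snd) (hU3 (Classical.arbitrary Θ) z)
        rw [H653.push_push, H653.push_push] at h1
        exact h1
      refine ⟨U, hU1, ?_, ?_, ?_⟩
      · intro i
        cases i with
        | none =>
          have h1 := congrArg (push (fun _ => (0 : V2 D))) (hν (Classical.arbitrary Z))
          rw [H653.push_push, H653.push_push] at h1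
          exact h1
        | some i => exact hU2 i
      · intro z
        have h1 := congrArg (push I) (hν z)
        rw [H653.push_push, H653.push_push] at h1
        exact h1
      · intro p
        have h1 := congrArg (push J) (hU3 p.1 p.2)
        rw [H653.push_push, H653.push_push] at h1
        exact h1)
  refine ⟨_, _, _, _, { hmain with dim := hmain.dim.trans ?_ }⟩
  rw [Fintype.card_option]
  exact hDd

variable {M n m' dT Bn Dn N0 : ℕ}

/-- **The good code of the tree.** -/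
theorem code4_tree (hLOW2 : SpecLOW2) (hGL : SpecGLOBAL) (N : NodeSys X M (Fin Bn × Fin Dn))
    (hN : N.Good n m' dT)
    (h300 : 300 * (n + 1) * (M + 1) * ((2 * m' + 1) * (n * m')) < Dn) (hnD : n ≤ Dn)
    (hm' : 1 ≤ m') (𝒢 : Finset (Fin M → Fin Bn)) (h𝒢 : 𝒢.Nonempty) (hconn : GridConn 𝒢)
    (G0 : Fin N0 → Fin M → Fin Bn) (hN0 : 0 < N0) (hG0 : ∀ i, G0 i ∈ 𝒢) (p : ℝ)
    (hp : ∀ x : X, x ≠ 0 →
      ((univ.filter fun ij : Fin N0 × (Fin M → Fin Dn) =>
        N.view ∅ (fun v => (G0 ij.1 v, ij.2 v)) x = 0).card : ℝ) ≤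
      p * (N0 * (Dn : ℝ) ^ M))
    {W W0 h a a0 l D Nc q q1 qh kh κ d k V0 Bd Dd : ℕ} {e e1 pc : ℝ}
    (hκ : Fintype.card X = 2 ^ κ)
    (hcode : CodeP a D W0 h (2 * dT) Nc) (hq : 0 < q) (he : e < 1 / 2)
    (hcond : HasCond a W0 (2 * dT) q e) (hW0 : h * W ≤ W0) (hW4 : 4 * W ≤ W0)
    (hWm : 32 * W ≤ 2 ^ m') (hq1 : 0 < q1) (he1 : e1 ≤ 1 / 100)
    (hcond1 : HasCond a0 (2 ^ m') dT q1 e1) (hla : l + a0 ≤ a) (haD : a ≤ D) (hqh : 0 < qh)
    (hhash : HasHash l dT qh kh) (hk : k ≤ 2 ^ m')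
    (hV0 : Nat.card (ViewT N 𝒢) ≤ V0)
    (hBd : V0 ^ 2 * (Nc * (1 + (V0 ^ 2 * q + (N0 * Dn ^ M * qh) * (V0 * q1)))) ≤ Bd)
    (hW : 20 * ((Bd + 1) * d) ≤ W) (hpc : p + kh / qh ≤ pc)
    (hDd : ((Bd + 1) + (V0 * q1 + (N0 * Dn ^ M * qh) * (V0 * q1))) * 2 ^ D ≤ Dd) :
    ∃ (V V1 : Submodule (ZMod 2) (X → ZMod 2)) (Γ : Type) (g : Γ → X → ZMod 2),
      GoodCode X κ D d k Dd pc V V1 Γ g := by
  classical
  have hD : 0 < Dn := by omega
  have hne : Nonempty (ViewT N 𝒢) := nonempty_view N 𝒢 h𝒢 hD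
  let hft : Fintype (ViewT N 𝒢) := Fintype.ofFinite _
  have hne1 : Nonempty (Fin q1) := ⟨⟨0, hq1⟩⟩
  have hne2 : Nonempty ((Fin N0 × (Fin M → Fin Dn)) × Fin qh) :=
    ⟨((⟨0, hN0⟩, fun _ => ⟨0, hD⟩), ⟨0, hqh⟩)⟩
  have hV0' : Fintype.card (ViewT N 𝒢) ≤ V0 := by
    rw [Nat.card_eq_fintype_card] at hV0
    exact hV0
  obtain ⟨ι, hι, τ, ν, hs, hcard, hloss, hcoll, hex⟩ := tree_pkg hLOW2 hGL N hN h300 hnD hm' 𝒢
    h𝒢 hconn G0 hG0 p hp hcode hq he hcond hW0 hW4 hWm hq1 he1 hcond1 hla hqh hhash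
  have hcΘ : Fintype.card ((Fin N0 × (Fin M → Fin Dn)) × Fin qh) = N0 * Dn ^ M * qh := by
    simp [Fintype.card_prod]
  have hcZ : Fintype.card (ViewT N 𝒢 × Fin q1) ≤ V0 * q1 := by
    rw [Fintype.card_prod, Fintype.card_fin]
    exact Nat.mul_le_mul_right _ hV0'
  have hιBd : Fintype.card ι ≤ Bd := by
    refine hcard.trans (le_trans ?_ hBd)
    gcongr
  refine goodCode_of_pkg κ d k W (2 ^ m') pc hκ τ ν hs (hla.trans haD) hloss ?_ hk ?_ ?_ Dd ?_
  · intro x x' hxx
    refine (hcoll x x' hxx).trans ?_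
    rw [hcΘ]
    push_cast
    exact mul_le_mul_of_nonneg_right hpc (by positivity)
  · refine le_trans ?_ hW
    gcongr
  · intro B hB
    obtain ⟨U, hU1, hU2, hU3⟩ := hex B hB
    exact ⟨U, by omega, hU2, hU3⟩
  · refine le_trans ?_ hDd
    rw [hcΘ]
    gcongr

end code

end Vale.Agent.P318.H918
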