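import Vale.Agent.P318.H918.NumB
import Vale.Agent.P318.H918.Code4Tree
import Vale.Agent.P318.H460.Seed
import Vale.Agent.P318.H249.Count
import Vale.Agent.P318.H505.DInst
import Vale.Agent.P318.H6.Spec

/-!
# P318: `SpecCODE6` from the tree with direct-sum codes on the pair views
-/

open Finset

namespace Vale.Agent.P318.H918

open Vale.Agent.P318 Vale.Agent.P318.H937
open Vale.Agent.P318.H283 (V2 HasCond CodeP)
open Vale.Agent.P318.H269 (ViewT)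
open Vale.Agent.P318.H460 (reseed reseed_good)

/-- the hash family is the family of condensers for sets of size one -/
theorem hasHash (d jh : ℕ) (hjh : 1 ≤ jh) : HasHash (2 * jh) d (2 ^ (2 * jh)) (d + 1) := by
  intro r hr
  obtain ⟨E, -, hE⟩ := H986.exists_vless d 0 (2 * jh) jh hjh (by omega) (Fin r → ZMod 2)
    (by rw [Module.finrank_fin_fun]; exact hr)
  exact ⟨E, hE⟩

/-- the loss of the condensers -/
theorem loss_lt_half (w d j : ℕ) (h : 2 * ((2 * w + 1) * ((2 * d + 2) * (w + 1))) < 2 ^ j) :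
    (2 * (w : ℝ) + 1) * ((((2 * d : ℕ) : ℝ) + 2) * (w + 1)) / 2 ^ j < 1 / 2 := by
  have h1 : ((2 * ((2 * w + 1) * ((2 * d + 2) * (w + 1))) : ℕ) : ℝ) < ((2 ^ j : ℕ) : ℝ) := by
    exact_mod_cast h
  push_cast at h1 ⊢
  rw [div_lt_iff₀ (by positivity)]
  linarith

theorem loss_le_hund (m d j : ℕ) (h : 100 * ((2 * m + 1) * ((d + 2) * (m + 1))) ≤ 2 ^ j) :
    (2 * (m : ℝ) + 1) * (((d : ℝ) + 2) * (m + 1)) / 2 ^ j ≤ 1 / 100 := by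
  have h1 : ((100 * ((2 * m + 1) * ((d + 2) * (m + 1))) : ℕ) : ℝ) ≤ ((2 ^ j : ℕ) : ℝ) := by
    exact_mod_cast h
  push_cast at h1 ⊢
  rw [div_le_iff₀ (by positivity)]
  linarith

theorem spec_code6 (hTree : SpecTREE) (hSample : SpecSAMPLE) (hLOW2 : SpecLOW2)
    (hGL : SpecGLOBAL) : H6.SpecCODE6 := by
  obtain ⟨C, ℓ0, hnum⟩ := numbersA
  refine ⟨C, ℓ0, fun ℓ hℓ => ?_⟩
  obtain ⟨P⟩ := hnum ℓ hℓ
  obtain ⟨N', hN'⟩ := hTree P.e P.m' P.n P.Lv P.he P.hm' P.hn P.hLv P.hmen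
  have hsd : 2 ^ P.eB * 2 ^ P.eD = 2 ^ P.e := by rw [← pow_add, P.heBD]
  let σ : Fin (2 ^ P.eB) × Fin (2 ^ P.eD) ≃ Fin (2 ^ P.e) :=
    finProdFinEquiv.trans (finCongr hsd)
  let X : Type := (Fin (2 ^ P.Lv) → Fin (P.m' * P.e)) → ZMod 2
  let N : NodeSys X (2 ^ P.Lv - 1) (Fin (2 ^ P.eB) × Fin (2 ^ P.eD)) := reseed N' σ
  have hN : N.Good P.n P.m' ((P.m' * P.e) ^ (2 * P.Lv + 2)) := reseed_good N' σ hN'
  have hcard : Fintype.card X = 2 ^ ((P.m' * P.e) ^ (2 ^ P.Lv)) := by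
    simp [X]
  have h2 : 2 ≤ 2 ^ P.Lv := by
    calc 2 = 2 ^ 1 := rfl
      _ ≤ 2 ^ P.Lv := Nat.pow_le_pow_right (by norm_num) P.hLv
  have hM : 0 < 2 ^ P.Lv - 1 := by omega
  have hBn : 0 < 2 ^ P.eB := by positivity
  have hDn : 0 < 2 ^ P.eD := by positivity
  obtain ⟨G0, 𝒢, hG0, hconn, hcardG, hcoll⟩ := hSample X (2 ^ P.Lv - 1) P.n P.m' _ (2 ^ P.eB)
    (2 ^ P.eD) ((P.m' * P.e) ^ (2 ^ P.Lv)) P.N0 N hN hcard hM hBn hDn P.hN0 P.hN0'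
  have hne : 𝒢.Nonempty := ⟨_, hG0 ⟨0, P.hN0⟩⟩
  have hV0 : Nat.card (ViewT N 𝒢) ≤ P.V0 :=
    (H249.card_view_le N 𝒢).trans ((Nat.mul_le_mul_right _ (Nat.mul_le_mul_left _ hcardG)).trans
      P.hV0)
  set p : ℝ := (4 * (((2 ^ P.Lv - 1 : ℕ) : ℝ) * P.n)) /
    ((2 ^ P.eB : ℕ) * (2 ^ P.eD : ℕ)) with hp
  have hcoll' : ∀ x : X, x ≠ 0 →
      ((univ.filter fun ij : Fin P.N0 × (Fin (2 ^ P.Lv - 1) → Fin (2 ^ P.eD)) =>
        N.view ∅ (fun v => (G0 ij.1 v, ij.2 v)) x = 0).card : ℝ) ≤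
      p * (P.N0 * ((2 ^ P.eD : ℕ) : ℝ) ^ (2 ^ P.Lv - 1)) := by
    intro x hx
    have h := hcoll x hx
    have hpos : (0 : ℝ) < ((2 ^ P.eB : ℕ) : ℝ) * ((2 ^ P.eD : ℕ) : ℝ) := by positivity
    rw [hp, div_mul_eq_mul_div, le_div_iff₀ hpos]
    refine h.trans (le_of_eq ?_)
    ring
  obtain ⟨dT, hdT⟩ : ∃ dT, (P.m' * P.e) ^ (2 * P.Lv + 2) = dT := ⟨_, rfl⟩
  have hdS := P.hdS
  have hjqe := P.hjqe
  have hj1e := P.hj1e
  have hpP := P.hp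
  rw [hdT] at hN hdS hjqe hj1e hpP
  have hcode : CodeP P.a (4 * P.a + 1) (2 ^ P.w) (2 ^ (2 * P.J + 3)) (2 * dT)
      (2 ^ ((10 * (P.S + 2 * P.α + 10) + 6) * P.S)) :=
    H505.mono_codeP _ _ _ _ _ _ _ _ hdS le_rfl
      (H505.codeP_dsum P.hJ le_rfl le_rfl P.h3a P.hαS P.hJS)
  have hcond := H986.hasCond P.jq P.w (2 * dT) P.a P.hjq P.hjqa
  have hcond1 := H986.hasCond P.j1 P.m' dT (2 * P.m' + 2 * P.j1) P.hj1 le_rfl
  obtain ⟨V, V1, Γ, g, hgood⟩ := code4_tree hLOW2 hGL N hN P.hD P.hnD P.hm' 𝒢 hne hconn G0 P.hN0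
    hG0 p hcoll' hcard hcode (by positivity) (loss_lt_half _ _ _ hjqe) hcond P.hW0 P.hW4 P.hWm
    (by positivity) (loss_le_hund _ _ _ hj1e) hcond1 P.hla (by omega) (by positivity)
    (hasHash dT P.jh P.hjh) P.hk hV0 le_rfl P.hW hpP P.hdim
  exact ⟨(P.m' * P.e) ^ (2 ^ P.Lv), 4 * P.a + 1, 2 ^ (4 * ℓ + 70), 2 ^ (C * ℓ), P.hκ1, P.hκ2,
    P.hs1, P.hs2, le_rfl, le_rfl, X, inferInstance, inferInstance, inferInstance, inferInstance,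
    V, V1, Γ, g, hgood⟩

end Vale.Agent.P318.H918
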