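import Vale.Agent.P318.H770.Meas

/-!
# P318, section 9: double gluing and the diagonal argument

Abstract form.  `π : 𝒯 → (X →ₗ X)` a finite family of views which is lossless on sets of size
at most `W'` and for which consistent families of small mod-2 measures can be glued.  Then a
consistent family of small measures on the pair views is the push-forward of one measure.
-/

open Finset

namespace Vale.Agent.P318.H918

open Vale.Agent.P318.H770 hiding sup
open Vale.Agent.P318

section slices

variable {X Y Z : Type} [Fintype X] [Fintype Y] [DecidableEq X] [DecidableEq Y]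
  [Fintype Z] [DecidableEq Z]

omit [Fintype Y] [DecidableEq X] in
theorem push_map_right (f : X → Y) (ν : Z × X → ZMod 2) (η : Z) (y : Y) :
    push (Prod.map id f) ν (η, y) = push f (fun x => ν (η, x)) y := by
  unfold push
  rw [sum_filter, Fintype.sum_prod_type, sum_filter]
  rw [sum_eq_single η]
  · refine sum_congr rfl fun x _ => ?_
    simp [Prod.ext_iff]
  · intro b _ hb
    refine sum_eq_zero fun x _ => ?_
    rw [if_neg]
    simp [Prod.ext_iff, hb]
  · intro h
    exact absurd (mem_univ _) h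

omit [Fintype Y] [DecidableEq X] in
theorem push_map_left (f : X → Y) (ν : X × Z → ZMod 2) (η : Z) (y : Y) :
    push (Prod.map f id) ν (y, η) = push f (fun x => ν (x, η)) y := by
  unfold push
  rw [sum_filter, Fintype.sum_prod_type_right, sum_filter]
  rw [sum_eq_single η]
  · refine sum_congr rfl fun x _ => ?_
    simp [Prod.ext_iff]
  · intro b _ hb
    refine sum_eq_zero fun x _ => ?_
    rw [if_neg]
    simp [Prod.ext_iff, hb]
  · intro h
    exact absurd (mem_univ _) h

omit [DecidableEq X] [DecidableEq Z] in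
theorem sz_slices_left (ν : Z × X → ZMod 2) : sz ν = ∑ η, sz (fun x => ν (η, x)) := by
  classical
  unfold sz H770.sup
  rw [card_filter, Fintype.sum_prod_type]
  refine sum_congr rfl fun η _ => ?_
  rw [card_filter]

omit [DecidableEq X] [DecidableEq Z] in
theorem sz_slices_right (ν : X × Z → ZMod 2) : sz ν = ∑ η, sz (fun x => ν (x, η)) := by
  classical
  unfold sz H770.sup
  rw [card_filter, Fintype.sum_prod_type_right]
  refine sum_congr rfl fun η _ => ?_
  rw [card_filter]

omit [DecidableEq X] [DecidableEq Z] in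
theorem sz_slice_left_le (ν : Z × X → ZMod 2) (η : Z) : sz (fun x => ν (η, x)) ≤ sz ν := by
  rw [sz_slices_left ν]
  exact single_le_sum (f := fun η => sz (fun x => ν (η, x))) (fun _ _ => Nat.zero_le _)
    (mem_univ η)

omit [DecidableEq X] [DecidableEq Z] in
theorem sz_slice_right_le (ν : X × Z → ZMod 2) (η : Z) : sz (fun x => ν (x, η)) ≤ sz ν := by
  rw [sz_slices_right ν]
  exact single_le_sum (f := fun η => sz (fun x => ν (x, η))) (fun _ _ => Nat.zero_le _)
    (mem_univ η)

end slices

section lossless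

variable {X A : Type} [Fintype X] [DecidableEq X] [Fintype A] [DecidableEq A]
variable {𝒯 : Type} [Fintype 𝒯]

/-- The family loses at most one fortieth of every set of size at most `W'`. -/
def Lossy (E : 𝒯 → X → A) (W' : ℕ) : Prop :=
  ∀ U : Finset X, U.card ≤ W' →
    39 * (Fintype.card 𝒯 * U.card) ≤ 40 * ∑ T, (U.image (E T)).card

omit [Fintype X] [Fintype A] in
/-- The number of isolated pairs. -/
theorem sum_iso (E : 𝒯 → X → A) {W' : ℕ} (hL : Lossy E W') (U : Finset X)
    (hU : U.card ≤ W') :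
    19 * (Fintype.card 𝒯 * U.card) ≤ 20 * ∑ T, (iso (E T) U).card := by
  have h1 := hL U hU
  have h2 : ∑ T, 2 * (U.image (E T)).card ≤ ∑ T : 𝒯, (U.card + (iso (E T) U).card) :=
    sum_le_sum fun T _ => two_mul_card_image_le (E T) U
  rw [← mul_sum, sum_add_distrib, sum_const, card_univ, smul_eq_mul] at h2
  omega

/-- The average size of the push-forward. -/
theorem sum_sz_push (E : 𝒯 → X → A) {W' : ℕ} (hL : Lossy E W') (μ : X → ZMod 2)
    (hU : sz μ ≤ W') :
    19 * (Fintype.card 𝒯 * sz μ) ≤ 20 * ∑ T, sz (push (E T) μ) := by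
  have h1 := sum_iso E hL (H770.sup μ) hU
  have h2 : ∑ T, (iso (E T) (H770.sup μ)).card ≤ ∑ T, sz (push (E T) μ) :=
    sum_le_sum fun T _ => card_iso_le_sz_push (E T) μ
  have h3 : (H770.sup μ).card = sz μ := rfl
  rw [h3] at h1
  omega

theorem eq_zero_of_push (E : 𝒯 → X → A) {W' : ℕ} (hL : Lossy E W')
    (h𝒯 : 0 < Fintype.card 𝒯) (μ : X → ZMod 2) (hU : sz μ ≤ W')
    (h : ∀ T, push (E T) μ = 0) : μ = 0 := by
  have h1 := sum_sz_push E hL μ hU
  have h2 : ∑ T, sz (push (E T) μ) = 0 := sum_eq_zero fun T _ => by rw [h T, sz_zero]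
  rw [h2] at h1
  by_contra hμ
  have h3 : 0 < sz μ := Nat.pos_of_ne_zero fun h0 => hμ (sz_eq_zero.1 h0)
  have h4 := Nat.mul_pos h𝒯 h3
  omega

omit [Fintype X] [Fintype A] in
/-- Losslessness on pairs contains losslessness on single elements. -/
theorem Lossy.of_pair (E : 𝒯 → X → A) {W' : ℕ}
    (hL : Lossy (fun T (p : X × X) => (E T p.1, E T p.2)) W') : Lossy E W' := by
  intro U hU
  have hinj : Function.Injective fun x : X => (x, x) := fun x y h => (Prod.ext_iff.1 h).1
  have hinjA : Function.Injective fun x : A => (x, x) := fun x y h => (Prod.ext_iff.1 h).1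
  have h1 := hL (U.image fun x => (x, x)) (by rw [card_image_of_injective _ hinj]; exact hU)
  rw [card_image_of_injective _ hinj] at h1
  refine h1.trans (le_of_eq ?_)
  congr 1
  refine sum_congr rfl fun T _ => ?_
  rw [image_image, ← card_image_of_injective (U.image (E T)) hinjA, image_image]
  rfl

end lossless

section core

variable {X : Type} [AddCommGroup X] [Module (ZMod 2) X] [Fintype X] [DecidableEq X]
variable {𝒯 : Type} [Fintype 𝒯]

/-- Gluing of consistent families of small measures, in the form needed for pair views. -/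
def Glue (π : 𝒯 → X →ₗ[ZMod 2] X) (W W2 : ℕ) : Prop :=
  ∀ μ : 𝒯 → X → ZMod 2, (∀ T, sz (μ T) ≤ W) →
    (∀ T x, μ T x ≠ 0 → ∃ z, π T z = x) →
    (∀ T T' (φ : X →ₗ[ZMod 2] X), φ ∘ₗ π T = π T' → push φ (μ T) = μ T') →
    ∃ U : X → ZMod 2, sz U ≤ W2 ∧ ∀ T, push (π T) U = μ T

omit [Fintype X] in
/-- The number of views under which a pair of different points becomes diagonal. -/
theorem card_collision (π : 𝒯 → X →ₗ[ZMod 2] X) {W' : ℕ}
    (hL : Lossy (fun T x => π T x) W') (h2 : 2 ≤ W') {x y : X} (hxy : x ≠ y) :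
    20 * (univ.filter fun T => π T x = π T y).card ≤ Fintype.card 𝒯 := by
  have h1 : 39 * (Fintype.card 𝒯 * 2) ≤
      40 * ∑ T, (({x, y} : Finset X).image fun x => π T x).card := by
    have := hL {x, y} (by rw [card_pair hxy]; exact h2)
    rwa [card_pair hxy] at this
  have h3 : ∑ T, (({x, y} : Finset X).image fun x => π T x).card +
      (univ.filter fun T => π T x = π T y).card ≤ ∑ _T : 𝒯, 2 := by
    rw [card_filter, ← sum_add_distrib]
    refine sum_le_sum fun T _ => ?_
    rw [image_insert, image_singleton]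
    split_ifs with h
    · rw [h]
      simp
    · rw [card_pair h]
  rw [sum_const, card_univ, smul_eq_mul] at h3
  omega

/-- **Double gluing.** -/
theorem pair_glue (π : 𝒯 → X →ₗ[ZMod 2] X) {W W' W2 : ℕ}
    (hL : Lossy (fun T x => π T x) W') (h𝒯 : 0 < Fintype.card 𝒯)
    (hG : Glue π (2 * W) W2) (hW2 : W2 ≤ W') (hWW' : 3 * W ≤ W')
    (μ : 𝒯 → 𝒯 → X × X → ZMod 2) (hsz : ∀ T0 T, sz (μ T0 T) ≤ W)
    (hsupp : ∀ T0 T p, μ T0 T p ≠ 0 → ∃ z, (π T0 z, π T z) = p)
    (hcons : ∀ T0 T T0' T' (φ0 φ : X →ₗ[ZMod 2] X), φ0 ∘ₗ π T0 = π T0' → φ ∘ₗ π T = π T' →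
      push (Prod.map φ0 φ) (μ T0 T) = μ T0' T') :
    ∃ U : X × X → ZMod 2, 361 * sz U ≤ 400 * W ∧
      ∀ T0 T, push (Prod.map (π T0) (π T)) U = μ T0 T := by
  -- step A
  have hA : ∀ T0 η, ∃ U : X → ZMod 2, sz U ≤ W2 ∧
      ∀ T, push (π T) U = fun x => μ T0 T (η, x) := by
    intro T0 η
    refine hG (fun T x => μ T0 T (η, x)) ?_ ?_ ?_
    · intro T
      have h1 := sz_slice_left_le (μ T0 T) η
      have h2 := hsz T0 T
      exact h1.trans (h2.trans (by omega))
    · intro T x hx
      obtain ⟨z, hz⟩ := hsupp T0 T (η, x) hx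
      exact ⟨z, (Prod.ext_iff.1 hz).2⟩
    · intro T T' φ hφ
      have h1 := hcons T0 T T0 T' LinearMap.id φ (LinearMap.id_comp _) hφ
      funext y
      rw [← h1]
      exact (push_map_right φ (μ T0 T) η y).symm
  choose A hA1 hA2 using hA
  set UA : 𝒯 → X × X → ZMod 2 := fun T0 p => A T0 p.1 p.2 with hUA
  have hUA1 : ∀ T0 T, push (Prod.map id (π T)) (UA T0) = μ T0 T := by
    intro T0 T
    funext p
    obtain ⟨η, y⟩ := p
    rw [push_map_right]
    exact congrFun (hA2 T0 η T) y
  have hUA2 : ∀ T0, 19 * sz (UA T0) ≤ 20 * W := by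
    intro T0
    have h1 : ∀ η, 19 * (Fintype.card 𝒯 * sz (A T0 η)) ≤
        20 * ∑ T, sz (fun x => μ T0 T (η, x)) := by
      intro η
      have h2 := sum_sz_push (fun T x => π T x) hL (A T0 η) ((hA1 T0 η).trans hW2)
      refine h2.trans (le_of_eq ?_)
      congr 1
      exact sum_congr rfl fun T _ => congrArg sz (hA2 T0 η T)
    have h3 : 19 * (Fintype.card 𝒯 * sz (UA T0)) ≤ 20 * ∑ T, sz (μ T0 T) := by
      have h4 : ∑ η, 19 * (Fintype.card 𝒯 * sz (A T0 η)) ≤
        ∑ η, 20 * ∑ T, sz (fun x => μ T0 T (η, x)) :=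
        sum_le_sum fun η _ => h1 η
      rw [← mul_sum, ← mul_sum, ← mul_sum, sum_comm] at h4
      have h5 : ∑ η, sz (A T0 η) = sz (UA T0) := (sz_slices_left (UA T0)).symm
      rw [h5] at h4
      refine h4.trans (le_of_eq ?_)
      congr 1
      exact sum_congr rfl fun T _ => (sz_slices_left (μ T0 T)).symm
    have h6 : ∑ T, sz (μ T0 T) ≤ Fintype.card 𝒯 * W := by
      refine (sum_le_sum fun T _ => hsz T0 T).trans ?_
      rw [sum_const, card_univ, smul_eq_mul]
    have h8 : Fintype.card 𝒯 * (19 * sz (UA T0)) ≤ Fintype.card 𝒯 * (20 * W) := by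
      nlinarith
    exact Nat.le_of_mul_le_mul_left h8 h𝒯
  have hUA3 : ∀ T0 η, (∀ z, π T0 z ≠ η) → A T0 η = 0 := by
    intro T0 η hη
    refine eq_zero_of_push (fun T x => π T x) hL h𝒯 _ ((hA1 T0 η).trans hW2) fun T => ?_
    refine (hA2 T0 η T).trans ?_
    funext x
    by_contra hx
    obtain ⟨z, hz⟩ := hsupp T0 T (η, x) hx
    exact hη z (Prod.ext_iff.1 hz).1
  -- step B
  have hB : ∀ T0 T0' (φ0 : X →ₗ[ZMod 2] X), φ0 ∘ₗ π T0 = π T0' →
      push (Prod.map φ0 id) (UA T0) = UA T0' := by
    intro T0 T0' φ0 hφ0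
    refine eq_of_add_eq_zero ?_
    set D := push (Prod.map φ0 id) (UA T0) + UA T0' with hD
    have hDsz : sz D ≤ W' := by
      have h1 := sz_add_le (push (Prod.map φ0 id) (UA T0)) (UA T0')
      rw [← hD] at h1
      have h2 := sz_push_le (Prod.map φ0 id) (UA T0)
      have h3 := hUA2 T0
      have h4 := hUA2 T0'
      omega
    have hDp : ∀ T, push (Prod.map id (π T)) D = 0 := by
      intro T
      rw [hD, push_add, hUA1, push_push]
      have h1 : (Prod.map id (π T)) ∘ (Prod.map φ0 id) =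
          (Prod.map φ0 id) ∘ (Prod.map (id : X → X) (π T)) := by
        funext p
        rfl
      rw [h1, ← push_push, hUA1]
      have h2 := hcons T0 T T0' T φ0 LinearMap.id hφ0 (LinearMap.id_comp _)
      have h3 : (Prod.map φ0 id : X × X → X × X) = Prod.map φ0 (LinearMap.id : X →ₗ[ZMod 2] X) := by
        funext p
        rfl
      rw [h3, h2, add_self_meas]
    funext p
    obtain ⟨η, x⟩ := p
    have h5 : (fun x => D (η, x)) = 0 := by
      refine eq_zero_of_push (fun T x => π T x) hL h𝒯 _ ((sz_slice_left_le D η).trans hDsz)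
        fun T => ?_
      funext y
      have h6 := push_map_right (π T) D η y
      rw [hDp T] at h6
      exact h6.symm
    exact congrFun h5 x
  -- step C
  have hC : ∀ x, ∃ U : X → ZMod 2, sz U ≤ W2 ∧
      ∀ T0, push (π T0) U = fun η => UA T0 (η, x) := by
    intro x
    refine hG (fun T0 η => UA T0 (η, x)) ?_ ?_ ?_
    · intro T0
      have h1 := sz_slice_right_le (UA T0) x
      have h2 := hUA2 T0
      exact h1.trans (by omega)
    · intro T0 η hη
      by_contra hcon
      push Not at hcon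
      apply hη
      change A T0 η x = 0
      rw [hUA3 T0 η hcon]
      rfl
    · intro T0 T0' φ hφ
      have h1 := hB T0 T0' φ hφ
      funext y
      rw [← h1]
      exact (push_map_left φ (UA T0) x y).symm
  choose C hC1 hC2 using hC
  set UC : X × X → ZMod 2 := fun p => C p.2 p.1 with hUC
  have hUC1 : ∀ T0, push (Prod.map (π T0) id) UC = UA T0 := by
    intro T0
    funext p
    obtain ⟨y, η⟩ := p
    rw [push_map_left]
    exact congrFun (hC2 η T0) y
  have hUC2 : 361 * sz UC ≤ 400 * W := by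
    have h1 : ∀ x, 19 * (Fintype.card 𝒯 * sz (C x)) ≤
        20 * ∑ T0, sz (fun η => UA T0 (η, x)) := by
      intro x
      have h2 := sum_sz_push (fun T x => π T x) hL (C x) ((hC1 x).trans hW2)
      refine h2.trans (le_of_eq ?_)
      congr 1
      exact sum_congr rfl fun T _ => congrArg sz (hC2 x T)
    have h3 : 19 * (Fintype.card 𝒯 * sz UC) ≤ 20 * ∑ T, sz (UA T) := by
      have h4 : ∑ x, 19 * (Fintype.card 𝒯 * sz (C x)) ≤
        ∑ x, 20 * ∑ T0, sz (fun η => UA T0 (η, x)) :=
        sum_le_sum fun x _ => h1 x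
      rw [← mul_sum, ← mul_sum, ← mul_sum, sum_comm] at h4
      have h5 : ∑ x, sz (C x) = sz UC := (sz_slices_right UC).symm
      rw [h5] at h4
      refine h4.trans (le_of_eq ?_)
      congr 1
      exact sum_congr rfl fun T _ => (sz_slices_right (UA T)).symm
    have h6 : 19 * ∑ T, sz (UA T) ≤ Fintype.card 𝒯 * (20 * W) := by
      rw [mul_sum]
      refine (sum_le_sum fun T _ => hUA2 T).trans ?_
      rw [sum_const, card_univ, smul_eq_mul]
    have h8 : Fintype.card 𝒯 * (361 * sz UC) ≤ Fintype.card 𝒯 * (400 * W) := by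
      nlinarith
    exact Nat.le_of_mul_le_mul_left h8 h𝒯
  refine ⟨UC, hUC2, fun T0 T => ?_⟩
  have h1 : (Prod.map (π T0) (π T)) = (Prod.map id (π T)) ∘ (Prod.map (π T0) (id : X → X)) := by
    funext p
    rfl
  rw [h1, ← push_push, hUC1, hUA1]

/-- **The diagonal argument.** -/
theorem diag_of_glue (π : 𝒯 → X →ₗ[ZMod 2] X) {W' : ℕ}
    (hL : Lossy (fun T (p : X × X) => (π T p.1, π T p.2)) W')
    (h𝒯 : 0 < Fintype.card 𝒯) (h2 : 2 ≤ W') (U : X × X → ZMod 2) (hU : sz U ≤ W')
    (hd : ∀ T p, push (Prod.map (π T) (π T)) U p ≠ 0 → p.1 = p.2) :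
    ∀ p, U p ≠ 0 → p.1 = p.2 := by
  classical
  by_contra hcon
  push Not at hcon
  obtain ⟨p0, hp0, hp0'⟩ := hcon
  set O : X × X → ZMod 2 := fun p => if p.1 = p.2 then 0 else U p with hO
  set Dg : X × X → ZMod 2 := fun p => if p.1 = p.2 then U p else 0 with hDg
  have hUO : U = Dg + O := by
    funext p
    simp only [hO, hDg, Pi.add_apply]
    split_ifs <;> simp
  have hOs : H770.sup O ⊆ H770.sup U := by
    intro p hp
    rw [H770.mem_sup] at hp ⊢
    intro h0
    apply hp
    simp only [hO]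
    split_ifs
    · rfl
    · exact h0
  have hOsz : (H770.sup O).card ≤ W' := (card_le_card hOs).trans hU
  have hOne : ∀ p, p ∈ H770.sup O → p.1 ≠ p.2 := by
    intro p hp h
    rw [H770.mem_sup] at hp
    exact hp (if_pos h)
  have hOd : ∀ T p, push (Prod.map (π T) (π T)) O p ≠ 0 → p.1 = p.2 := by
    intro T p hp
    by_contra hne
    have h1 : push (Prod.map (π T) (π T)) Dg p = 0 := by
      unfold push
      refine sum_eq_zero fun x hx => ?_
      simp only [hDg]
      split_ifs with h
      · exfalso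
        have h3 := (mem_filter.1 hx).2
        apply hne
        rw [← h3]
        exact congrArg (π T) h
      · rfl
    have h4 : push (Prod.map (π T) (π T)) U p ≠ 0 := by
      rw [hUO, push_add, Pi.add_apply, h1, zero_add]
      exact hp
    exact hne (hd T p h4)
  -- isolated pairs
  have h1 := sum_iso (fun T (p : X × X) => (π T p.1, π T p.2)) hL (H770.sup O) hOsz
  have h3 : ∀ T, (iso (fun p : X × X => (π T p.1, π T p.2)) (H770.sup O)).card ≤
      ((H770.sup O).filter fun p => π T p.1 = π T p.2).card := by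
    intro T
    refine card_le_card fun p hp => ?_
    have hp' := mem_iso.1 hp
    refine mem_filter.2 ⟨hp'.1, ?_⟩
    have h5 : push (Prod.map (π T) (π T)) O (Prod.map (π T) (π T) p) ≠ 0 := by
      refine push_of_isolated _ O (H770.mem_sup.1 hp'.1) fun p' hp'' h => ?_
      exact hp'.2 p' (H770.mem_sup.2 hp'') h
    exact hOd T _ h5
  have h4 : 20 * ∑ T, ((H770.sup O).filter fun p => π T p.1 = π T p.2).card ≤
      Fintype.card 𝒯 * (H770.sup O).card := by
    have h5 : ∑ T, ((H770.sup O).filter fun p => π T p.1 = π T p.2).card =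
        ∑ p ∈ H770.sup O, (univ.filter fun T => π T p.1 = π T p.2).card := by
      simp_rw [card_filter]
      rw [sum_comm]
    rw [h5, mul_sum]
    refine (sum_le_sum fun p hp => card_collision π
      (Lossy.of_pair (fun T x => π T x) hL) h2 (hOne p hp)).trans ?_
    rw [sum_const, smul_eq_mul, mul_comm]
  have h5 : 0 < (H770.sup O).card := by
    refine card_pos.2 ⟨p0, H770.mem_sup.2 ?_⟩
    simp only [hO]
    rw [if_neg hp0']
    exact hp0
  have h6 : ∑ T, (iso (fun p : X × X => (π T p.1, π T p.2)) (H770.sup O)).card ≤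
      ∑ T, ((H770.sup O).filter fun p => π T p.1 = π T p.2).card :=
    sum_le_sum fun T _ => h3 T
  have h7 := Nat.mul_pos h𝒯 h5
  omega

/-- **Exactness core**: a consistent family of small measures on the pair views is the
push-forward of one small measure on `X`. -/
theorem pair_exact (π : 𝒯 → X →ₗ[ZMod 2] X) {W W' W2 : ℕ}
    (hL : Lossy (fun T (p : X × X) => (π T p.1, π T p.2)) W') (h𝒯 : 0 < Fintype.card 𝒯)
    (hG : Glue π (2 * W) W2) (hW2 : W2 ≤ W') (hWW' : 3 * W ≤ W') (h2 : 2 ≤ W')
    (μ : 𝒯 → 𝒯 → X × X → ZMod 2) (hsz : ∀ T0 T, sz (μ T0 T) ≤ W)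
    (hsupp : ∀ T0 T p, μ T0 T p ≠ 0 → ∃ z, (π T0 z, π T z) = p)
    (hcons : ∀ T0 T T0' T' (φ0 φ : X →ₗ[ZMod 2] X), φ0 ∘ₗ π T0 = π T0' → φ ∘ₗ π T = π T' →
      push (Prod.map φ0 φ) (μ T0 T) = μ T0' T') :
    ∃ U : X → ZMod 2, 361 * sz U ≤ 400 * W ∧
      ∀ T0 T, push (fun x => (π T0 x, π T x)) U = μ T0 T := by
  obtain ⟨V, hV1, hV2⟩ := pair_glue π
    (Lossy.of_pair (fun T x => π T x) hL) h𝒯 hG hW2 hWW' μ hsz hsupp hcons
  have hd : ∀ p, V p ≠ 0 → p.1 = p.2 := by
    refine diag_of_glue π hL h𝒯 h2 V (by omega) fun T p hp => ?_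
    rw [hV2] at hp
    obtain ⟨z, hz⟩ := hsupp T T p hp
    rw [← hz]
  have hV : push (fun x => (x, x)) (fun x => V (x, x)) = V := by
    funext p
    obtain ⟨a, b⟩ := p
    unfold push
    rw [sum_filter]
    by_cases hab : a = b
    · subst hab
      rw [sum_eq_single a]
      · simp
      · intro c _ hc
        rw [if_neg]
        simp [Prod.ext_iff, hc]
      · intro h
        exact absurd (mem_univ _) h
    · rw [sum_eq_zero]
      · by_contra h
        exact hab (hd (a, b) (Ne.symm h))
      · intro c _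
        rw [if_neg]
        intro h
        apply hab
        have := Prod.ext_iff.1 h
        exact this.1.symm.trans this.2
  refine ⟨fun x => V (x, x), ?_, fun T0 T => ?_⟩
  · have h1 : sz (fun x => V (x, x)) ≤ sz V := by
      unfold sz
      refine card_le_card_of_injOn (fun x => (x, x)) ?_ ?_
      · intro x hx
        have := H770.mem_sup.1 (mem_coe.1 hx)
        exact mem_coe.2 (H770.mem_sup.2 this)
      · intro x _ y _ h
        exact (Prod.ext_iff.1 h).1
    omega
  · rw [← hV2 T0 T, ← hV, push_push]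
    congr 1
    rw [hV]

end core

end Vale.Agent.P318.H918
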