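import Vale.Agent.P318.H918.Local

/-!
# P318, section 9: exactness of the code (`SpecEXACT`)
-/

open Finset

namespace Vale.Agent.P318.H918

open Vale.Agent.P318 Vale.Agent.P318.H937
open Vale.Agent.P318.H269 (ViewT pviewL nonempty_view nonempty_pair)

section energy

variable {X : Type} [AddCommGroup X] [Module (ZMod 2) X] [Fintype X] [DecidableEq X]
  {M n m' dT Bn Dn : ℕ}

theorem energyRM_nonneg {Y : Type} [AddCommGroup Y] [Module (ZMod 2) Y] [Fintype Y] (s : ℕ)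
    (B : Y → ZMod 2) : 0 ≤ energyRM s B := by
  unfold energyRM
  positivity

/-- The energy of a small set of points. -/
theorem energy_low (hLow : SpecRMlow) (hLOW2 : SpecLOW2)
    (N : NodeSys X M (Fin Bn × Fin Dn)) (hN : N.Good n m' dT)
    (h300 : 300 * (n + 1) * (M + 1) * ((2 * m' + 1) * (n * m')) < Dn)
    (𝒢 : Finset (Fin M → Fin Bn)) (h𝒢 : 𝒢.Nonempty) (s : ℕ)
    (U : X → ZMod 2) (hU : 100 * sz U ≤ 2 ^ s) (hU' : sz U ≤ 2 ^ m') :
    (9 / 10 : ℝ) * sz U ≤ lam (testF N 𝒢 s) U * 2 ^ s := by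
  classical
  have hD : 0 < Dn := by omega
  have : Nonempty (ViewT N 𝒢) := nonempty_view N 𝒢 h𝒢 hD
  let _ : Fintype (ViewT N 𝒢) := Fintype.ofFinite _
  let _ : Fintype (PairT N 𝒢) := inferInstanceAs (Fintype (ViewT N 𝒢 × ViewT N 𝒢))
  have hcard : Fintype.card (PairT N 𝒢) = Fintype.card (ViewT N 𝒢) * Fintype.card (ViewT N 𝒢) :=
    Fintype.card_prod (ViewT N 𝒢) (ViewT N 𝒢)
  have hpos : (0 : ℝ) < Fintype.card (ViewT N 𝒢) := by
    exact_mod_cast Fintype.card_pos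
  have h2s : (0 : ℝ) < 2 ^ s := by positivity
  have hUr : (100 * sz U : ℝ) ≤ 2 ^ s := by exact_mod_cast hU
  have hhalf : ((1 / 2 : ℝ)) ^ s = (2 ^ s)⁻¹ := by rw [one_div, inv_pow]
  -- energy of one pair view
  have h1 : ∀ T : PairT N 𝒢, (99 / 100 : ℝ) * sz (push (pview N 𝒢 T) U) * (2 ^ s)⁻¹ ≤
      energyRM s (push (pview N 𝒢 T) U) := by
    intro T
    have h2 := hLow (X × X) s (push (pview N 𝒢 T) U)
    refine le_trans ?_ h2
    rw [hhalf]
    set u : ℝ := (sz (push (pview N 𝒢 T) U) : ℝ) with hu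
    have hu0 : 0 ≤ u := Nat.cast_nonneg _
    have hu1 : u ≤ sz U := by
      rw [hu]
      exact_mod_cast H770.sz_push_le (pview N 𝒢 T) U
    have h3 : u * (2 ^ s)⁻¹ ≤ 1 / 100 := by
      rw [← div_eq_mul_inv, div_le_iff₀ h2s]
      linarith
    have h4 : 0 ≤ u * (2 ^ s)⁻¹ := by positivity
    nlinarith
  -- size of the push-forward
  have h2 : ∀ T : PairT N 𝒢, ((H770.iso (fun x => N.view T.2.1.1 T.2.1.2 x) (H770.sup U)).card : ℝ) ≤
      sz (push (pview N 𝒢 T) U) := by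
    intro T
    have h3 := H770.card_iso_le_sz_push (pview N 𝒢 T) U
    have h4 : (H770.iso (fun x => N.view T.2.1.1 T.2.1.2 x) (H770.sup U)).card ≤
        (H770.iso (pview N 𝒢 T) (H770.sup U)).card := by
      refine card_le_card fun x hx => ?_
      have hx' := H770.mem_iso.1 hx
      refine H770.mem_iso.2 ⟨hx'.1, fun x' h h' => hx'.2 x' h ?_⟩
      exact (Prod.ext_iff.1 h').2
    exact_mod_cast h4.trans h3
  have h3 : 19 * (Fintype.card (ViewT N 𝒢) * (H770.sup U).card) ≤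
      20 * ∑ T : ViewT N 𝒢, (H770.iso (fun x => N.view T.1.1 T.1.2 x) (H770.sup U)).card := by
    exact sum_iso (fun (T : ViewT N 𝒢) (x : X) => N.view T.1.1 T.1.2 x)
      (Lossy.of_pair (fun (T : ViewT N 𝒢) (x : X) => N.view T.1.1 T.1.2 x)
        (lossy_views hLOW2 N hN h300 𝒢)) (H770.sup U) hU'
  have h4 : (19 : ℝ) * (Fintype.card (ViewT N 𝒢) * sz U) ≤
      20 * ∑ T : ViewT N 𝒢, ((H770.iso (fun x => N.view T.1.1 T.1.2 x) (H770.sup U)).card : ℝ) := by
    exact_mod_cast h3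
  have h5 := lam_testF N 𝒢 s U
  have h6 : ∑ T : PairT N 𝒢, (99 / 100 : ℝ) *
      ((H770.iso (fun x => N.view T.2.1.1 T.2.1.2 x) (H770.sup U)).card : ℝ) * (2 ^ s)⁻¹ ≤
      lam (testF N 𝒢 s) U * Fintype.card (PairT N 𝒢) := by
    rw [h5]
    refine sum_le_sum fun T _ => le_trans ?_ (h1 T)
    have := h2 T
    have h7 : (0 : ℝ) ≤ (2 ^ s)⁻¹ := by positivity
    have h8 : (99 / 100 : ℝ) *
        ((H770.iso (fun x => N.view T.2.1.1 T.2.1.2 x) (H770.sup U)).card : ℝ) ≤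
        (99 / 100 : ℝ) * sz (push (pview N 𝒢 T) U) := by linarith
    exact mul_le_mul_of_nonneg_right h8 h7
  have h7 : ∑ T : PairT N 𝒢, (99 / 100 : ℝ) *
      ((H770.iso (fun x => N.view T.2.1.1 T.2.1.2 x) (H770.sup U)).card : ℝ) * (2 ^ s)⁻¹ =
      (99 / 100 : ℝ) * (2 ^ s)⁻¹ * (Fintype.card (ViewT N 𝒢) * ∑ T : ViewT N 𝒢,
        ((H770.iso (fun x => N.view T.1.1 T.1.2 x) (H770.sup U)).card : ℝ)) := by
    have h8 : ∑ T : PairT N 𝒢, (99 / 100 : ℝ) *
        ((H770.iso (fun x => N.view T.2.1.1 T.2.1.2 x) (H770.sup U)).card : ℝ) * (2 ^ s)⁻¹ =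
        ∑ T : ViewT N 𝒢 × ViewT N 𝒢, (99 / 100 : ℝ) *
        ((H770.iso (fun x => N.view T.2.1.1 T.2.1.2 x) (H770.sup U)).card : ℝ) * (2 ^ s)⁻¹ := rfl
    rw [h8, Fintype.sum_prod_type]
    simp only [sum_const, card_univ, nsmul_eq_mul]
    rw [← sum_mul, ← mul_sum]
    ring
  rw [h7, hcard] at h6
  push_cast at h6
  have h9 : (99 / 100 : ℝ) * (2 ^ s)⁻¹ * (Fintype.card (ViewT N 𝒢) *
      ((19 / 20) * (Fintype.card (ViewT N 𝒢) * sz U))) ≤
      lam (testF N 𝒢 s) U * (Fintype.card (ViewT N 𝒢) * Fintype.card (ViewT N 𝒢)) := by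
    refine le_trans ?_ h6
    have h10 : (0 : ℝ) ≤ (99 / 100 : ℝ) * (2 ^ s)⁻¹ := by positivity
    refine mul_le_mul_of_nonneg_left ?_ h10
    refine mul_le_mul_of_nonneg_left ?_ hpos.le
    linarith
  have hp2 : (0 : ℝ) < (Fintype.card (ViewT N 𝒢) : ℝ) * Fintype.card (ViewT N 𝒢) := by
    positivity
  have h11 : (99 / 100 : ℝ) * (2 ^ s)⁻¹ * ((19 / 20) * sz U) ≤ lam (testF N 𝒢 s) U := by
    refine le_of_mul_le_mul_right ?_ hp2
    refine le_trans (le_of_eq ?_) h9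
    ring
  have h12 : (99 / 100 : ℝ) * ((19 / 20) * sz U) ≤ lam (testF N 𝒢 s) U * 2 ^ s := by
    have h13 := mul_le_mul_of_nonneg_right h11 h2s.le
    refine le_trans (le_of_eq ?_) h13
    field_simp
  have hsz0 : (0 : ℝ) ≤ sz U := Nat.cast_nonneg _
  linarith

end energy

theorem spec_exact (hRM : SpecRM) (hMD : SpecMD) (hLow : SpecRMlow) (hGL : SpecGLOBAL)
    (hLOW2 : SpecLOW2) : SpecEXACT := by
  intro X _ _ _ _ M n m' dT Bn Dn s d N hN h300 hnD hm' 𝒢 h𝒢 hconn hs hds hdm B hB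
  classical
  have hD : 0 < Dn := by omega
  have : Nonempty (ViewT N 𝒢) := nonempty_view N 𝒢 h𝒢 hD
  let _ : Fintype (ViewT N 𝒢) := Fintype.ofFinite _
  let _ : Fintype (PairT N 𝒢) := inferInstanceAs (Fintype (ViewT N 𝒢 × ViewT N 𝒢))
  set Mv : ℕ := Nat.card (PairT N 𝒢) with hMv
  have hMv' : (Fintype.card (PairT N 𝒢) : ℝ) = Mv := by
    rw [hMv, Nat.card_eq_fintype_card]
  have h2s : (0 : ℝ) < 2 ^ s := by positivity
  -- every local energy is small
  have hlam := lam_testF N 𝒢 s B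
  rw [hMv'] at hlam
  have hE : ∀ T : PairT N 𝒢, energyRM s (push (pview N 𝒢 T) B) * 2 ^ s ≤ Mv * d := by
    intro T
    have h1 : energyRM s (push (pview N 𝒢 T) B) ≤ lam (testF N 𝒢 s) B * Mv := by
      rw [hlam]
      exact single_le_sum (f := fun T : PairT N 𝒢 => energyRM s (push (pview N 𝒢 T) B))
        (fun T _ => energyRM_nonneg _ _) (mem_univ T)
    calc energyRM s (push (pview N 𝒢 T) B) * 2 ^ s
        ≤ lam (testF N 𝒢 s) B * Mv * 2 ^ s := mul_le_mul_of_nonneg_right h1 h2s.le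
      _ = Mv * (lam (testF N 𝒢 s) B * 2 ^ s) := by ring
      _ ≤ Mv * d := mul_le_mul_of_nonneg_left hB (Nat.cast_nonneg _)
  have hdsr : (1024 * (Mv * d) : ℝ) ≤ 2 ^ s := by exact_mod_cast hds
  have hE' : ∀ T : PairT N 𝒢, energyRM s (push (pview N 𝒢 T) B) ≤ (1 / 2) ^ 10 := by
    intro T
    have h1 := hE T
    have h2 : energyRM s (push (pview N 𝒢 T) B) * 2 ^ s ≤ (1 / 1024) * 2 ^ s := by linarith
    have h3 := le_of_mul_le_mul_right h2 h2s
    norm_num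
    linarith
  -- local measures
  have hloc : ∀ T : PairT N 𝒢, ∃ μ : X × X → ZMod 2,
      (sz μ : ℝ) ≤ 4 / 3 * 2 ^ s * energyRM s (push (pview N 𝒢 T) B) ∧
      (∀ p, μ p ≠ 0 → ∃ x, pview N 𝒢 T x = p) ∧ RMEq s (push (pview N 𝒢 T) B) μ := fun T =>
    exists_local hRM (pviewL N 𝒢 T) hs B (hE' T)
  choose μ hμ1 hμ2 hμ3 using hloc
  set W : ℕ := 2 * (Mv * d) with hW
  have hμs : ∀ T, sz (μ T) ≤ W := by
    intro T
    have h1 := hμ1 T
    have h2 := hE T
    have h3 : (sz (μ T) : ℝ) ≤ W := by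
      rw [hW]
      push_cast
      have h4 : (0 : ℝ) ≤ Mv * d := by positivity
      nlinarith
    exact_mod_cast h3
  have hW2s : W + W < 2 ^ (s + 1) := by
    have h1 : 1 ≤ 2 ^ s := Nat.one_le_two_pow
    have h2 : 2 ^ (s + 1) = 2 * 2 ^ s := pow_succ' 2 s
    omega
  have hcons : ∀ (T0 T T0' T' : ViewT N 𝒢) (φ0 φ : X →ₗ[ZMod 2] X),
      φ0 ∘ₗ N.view T0.1.1 T0.1.2 = N.view T0'.1.1 T0'.1.2 →
      φ ∘ₗ N.view T.1.1 T.1.2 = N.view T'.1.1 T'.1.2 →
      push (Prod.map φ0 φ) (μ (T0, T)) = μ (T0', T') := by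
    intro T0 T T0' T' φ0 φ h0 h1
    refine eq_of_RMEq hMD (s := s) ?_ ?_
    · have h2 := RMEq.push (φ0.prodMap φ) (hμ3 (T0, T))
      have h3 : push (φ0.prodMap φ) (push (pview N 𝒢 (T0, T)) B) =
          push (pview N 𝒢 (T0', T')) B := by
        have h4 : H770.push (φ0.prodMap φ) (H770.push (pview N 𝒢 (T0, T)) B) =
          H770.push (φ0.prodMap φ ∘ pview N 𝒢 (T0, T)) B := H770.push_push _ _ _
        have h5 : (φ0.prodMap φ ∘ pview N 𝒢 (T0, T) : X → X × X) = pview N 𝒢 (T0', T') := by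
          funext x
          have h6 := LinearMap.congr_fun h0 x
          have h7 := LinearMap.congr_fun h1 x
          exact Prod.ext h6 h7
        rw [h5] at h4
        exact h4
      rw [h3] at h2
      exact RMEq.trans (RMEq.symm h2) (hμ3 (T0', T'))
    · have h2 : sz (push (Prod.map φ0 φ) (μ (T0, T))) ≤ sz (μ (T0, T)) :=
        H770.sz_push_le _ _
      have h3 := hμs (T0, T)
      have h4 := hμs (T0', T')
      omega
  have hm2 : 2 ≤ 2 ^ m' := by
    calc 2 = 2 ^ 1 := by norm_num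
      _ ≤ 2 ^ m' := Nat.pow_le_pow_right (by norm_num) hm'
  obtain ⟨U, hU1, hU2⟩ := pair_exact (fun T : ViewT N 𝒢 => N.view T.1.1 T.1.2)
    (W := W) (W' := 2 ^ m') (W2 := 2 * (2 * W)) (lossy_views hLOW2 N hN h300 𝒢)
    Fintype.card_pos
    (glue_views hGL N hN h300 hnD hm' (2 * W) (by omega) 𝒢 h𝒢 hconn) (by omega) (by omega) hm2
    (fun T0 T => μ (T0, T)) (fun T0 T => hμs (T0, T))
    (fun T0 T p hp => hμ2 (T0, T) p hp) hcons
  have hsame : ∀ v ∈ codeV N 𝒢 s, pair B v = pair U v := by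
    have h1 : codeV N 𝒢 s ≤ LinearMap.ker
        ({ toFun := fun v => pair (B + U) v
           map_add' := fun v w => H770.pr_add_right _ v w
           map_smul' := fun a v => by
            simp only [pair, Pi.smul_apply, smul_eq_mul, RingHom.id_apply, mul_sum]
            exact sum_congr rfl fun x _ => by ring } : (X → ZMod 2) →ₗ[ZMod 2] ZMod 2) := by
      refine iSup_le fun T => ?_
      rintro _ ⟨w, hw, rfl⟩
      rw [LinearMap.mem_ker]
      change pair (B + U) (w ∘ pview N 𝒢 T) = 0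
      rw [pair_add, ← pair_push, ← pair_push]
      have h2 := hμ3 T w hw
      have h3 : push (pview N 𝒢 T) U = μ T := hU2 T.1 T.2
      rw [h3, h2]
      exact H770.add_self_zmod2 _
    intro v hv
    have h2 : pair (B + U) v = 0 := LinearMap.mem_ker.1 (h1 hv)
    rw [pair_add] at h2
    have key : ∀ a b : ZMod 2, a + b = 0 → a = b := by decide
    exact key _ _ h2
  refine ⟨U, hsame, ?_⟩
  have hlamU : lam (testF N 𝒢 s) B = lam (testF N 𝒢 s) U := by
    have h1 : ∀ γ, pair B (testF N 𝒢 s γ) = pair U (testF N 𝒢 s γ) := by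
      intro γ
      refine hsame _ ?_
      rw [H269.codeV_eq]
      exact H272.viewSp_le_codeSp (pviewL N 𝒢) s γ.1 ⟨prodAff γ.2, H272.prod_mem γ.2, rfl⟩
    have h2 : Nat.card {γ : TestT N 𝒢 s // pair B (testF N 𝒢 s γ) = 1} =
        Nat.card {γ : TestT N 𝒢 s // pair U (testF N 𝒢 s γ) = 1} :=
      Nat.card_congr (Equiv.subtypeEquivRight fun γ => by rw [h1 γ])
    unfold lam
    rw [h2]
  have hUsz : 361 * sz U ≤ 400 * W := hU1
  rw [hlamU]
  exact energy_low hLow hLOW2 N hN h300 𝒢 h𝒢 s U (by omega) (by omega)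

end Vale.Agent.P318.H918
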