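import Vale.Agent.P318.H918.Views

/-!
# P318, section 9: the local measures, and exactness of the code (`SpecEXACT`)
-/

open Finset

namespace Vale.Agent.P318.H918

open Vale.Agent.P318 Vale.Agent.P318.H937
open Vale.Agent.P318.H269 (ViewT)

section rm

variable {Y Z : Type} [AddCommGroup Y] [Module (ZMod 2) Y] [Fintype Y] [DecidableEq Y]
  [AddCommGroup Z] [Module (ZMod 2) Z] [Fintype Z] [DecidableEq Z]

theorem pair_push {X Y : Type} [Fintype X] [Fintype Y] [DecidableEq Y] (f : X → Y)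
    (μ : X → ZMod 2) (v : Y → ZMod 2) : pair (push f μ) v = pair μ (v ∘ f) :=
  H770.pr_push f μ v

theorem pair_add {X : Type} [Fintype X] (μ ν v : X → ZMod 2) :
    pair (μ + ν) v = pair μ v + pair ν v := H770.pr_add_left μ ν v

omit [DecidableEq Y] in
/-- equality on all functions of degree at most `s` is preserved by linear maps -/
theorem RMEq.push (φ : Y →ₗ[ZMod 2] Z) {s : ℕ} {B U : Y → ZMod 2} (h : RMEq s B U) :
    RMEq s (H937.push φ B) (H937.push φ U) := by
  intro v hv
  rw [pair_push, pair_push]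
  exact h _ (H272.pull_mem φ hv)

omit [DecidableEq Y] in
theorem RMEq.trans {s : ℕ} {B C U : Y → ZMod 2} (h : RMEq s B C) (h' : RMEq s C U) :
    RMEq s B U := fun v hv => (h v hv).trans (h' v hv)

omit [DecidableEq Y] in
theorem RMEq.symm {s : ℕ} {B C : Y → ZMod 2} (h : RMEq s B C) : RMEq s C B :=
  fun v hv => (h v hv).symm

omit [DecidableEq Y] in
theorem RMEq.refl {s : ℕ} (B : Y → ZMod 2) : RMEq s B B := fun _ _ => rfl

omit [DecidableEq Y] in
/-- small measures which agree on functions of degree at most `s` are equal -/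
theorem eq_of_RMEq (hMD : SpecMD) {s : ℕ} {B U : Y → ZMod 2} (h : RMEq s B U)
    (hs : sz B + sz U < 2 ^ (s + 1)) : B = U := by
  refine H770.eq_of_add_eq_zero ?_
  by_contra hne
  have h1 := hMD Y s (B + U) hne (by
    intro v hv
    rw [pair_add, h v hv]
    have h0 : pair (0 : Y → ZMod 2) v = 0 := by simp [pair]
    rw [h0]
    exact H770.add_self_zmod2 _)
  have h2 : sz (B + U) ≤ sz B + sz U := H770.sz_add_le B U
  omega

omit [Fintype Y] [DecidableEq Y] [Fintype Z] [DecidableEq Z] in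
/-- a linear retraction onto the range of a linear map -/
theorem exists_retraction (L : Y →ₗ[ZMod 2] Z) :
    ∃ ρ : Z →ₗ[ZMod 2] Z, (∀ x, ρ (L x) = L x) ∧ ∀ z, ∃ x, ρ z = L x := by
  obtain ⟨C, hC⟩ := Submodule.exists_isCompl (LinearMap.range L)
  refine ⟨(LinearMap.range L).subtype ∘ₗ Submodule.projectionOnto _ C hC, ?_, ?_⟩
  · intro x
    have h1 := Submodule.projectionOnto_apply_left hC
      (⟨L x, LinearMap.mem_range_self L x⟩ : LinearMap.range L)
    rw [LinearMap.comp_apply]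
    have h2 := congrArg (LinearMap.range L).subtype h1
    exact h2
  · intro z
    obtain ⟨x, hx⟩ := LinearMap.mem_range.1
      (Submodule.projectionOnto _ C hC z).2
    exact ⟨x, hx.symm⟩

omit [DecidableEq Y] in
/-- The local measure of a view. -/
theorem exists_local (hRM : SpecRM) (L : Y →ₗ[ZMod 2] Z) {s : ℕ} (hs : 8 ≤ s)
    (B : Y → ZMod 2) (hB : energyRM s (H937.push L B) ≤ (1 / 2) ^ 10) :
    ∃ μ : Z → ZMod 2, (sz μ : ℝ) ≤ 4 / 3 * 2 ^ s * energyRM s (H937.push L B) ∧
      (∀ p, μ p ≠ 0 → ∃ x, L x = p) ∧ RMEq s (H937.push L B) μ := by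
  obtain ⟨U, hU1, hU2⟩ := hRM Z s (H937.push L B) hs hB
  obtain ⟨ρ, hρ1, hρ2⟩ := exists_retraction L
  refine ⟨H937.push ρ U, ?_, ?_, ?_⟩
  · refine le_trans ?_ hU2
    exact_mod_cast H770.sz_push_le ρ U
  · intro p hp
    have h1 : p ∈ H770.sup (H770.push ρ U) := H770.mem_sup.2 hp
    obtain ⟨z, _, hz⟩ := mem_image.1 (H770.sup_push_subset ρ U h1)
    obtain ⟨x, hx⟩ := hρ2 z
    exact ⟨x, hx.symm.trans hz⟩
  · have h1 := RMEq.push ρ hU1
    have h2 : H937.push ρ (H937.push L B) = H937.push L B := by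
      have h3 : H770.push ρ (H770.push L B) = H770.push (ρ ∘ L) B := H770.push_push L ρ B
      have h4 : (ρ ∘ L : Y → Z) = L := funext hρ1
      rw [h4] at h3
      exact h3
    rw [h2] at h1
    exact h1

end rm

section avg

variable {X : Type} [AddCommGroup X] [Module (ZMod 2) X] [Fintype X] [DecidableEq X]
  {M Bn Dn : ℕ}

/-- `lam` of the test = average of the local energies -/
theorem lam_testF (N : NodeSys X M (Fin Bn × Fin Dn)) (𝒢 : Finset (Fin M → Fin Bn))
    [Fintype (PairT N 𝒢)] (s : ℕ) (B : X → ZMod 2) :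
    lam (testF N 𝒢 s) B * Fintype.card (PairT N 𝒢) =
      ∑ T : PairT N 𝒢, energyRM s (push (pview N 𝒢 T) B) := by
  have hfin : Finite (Module.Dual (ZMod 2) (X × X)) := Module.finite_of_finite (ZMod 2)
  have h2 : Nat.card {γ : TestT N 𝒢 s // pair B (testF N 𝒢 s γ) = 1} =
      ∑ T : PairT N 𝒢, Nat.card {a : Fin s → AffT (X × X) //
        pair (push (pview N 𝒢 T) B) (prodAff a) = 1} := by
    rw [← Nat.card_sigma]
    refine Nat.card_congr ((Equiv.subtypeProdEquivSigmaSubtype
      (fun (T : PairT N 𝒢) (b : Fin s → AffT (X × X)) =>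
        pair B (fun x => prodAff b (pview N 𝒢 T x)) = 1)).trans ?_)
    refine Equiv.sigmaCongrRight fun T => Equiv.subtypeEquivRight fun a => ?_
    rw [pair_push]
    rfl
  have h3 : Nat.card (TestT N 𝒢 s) = Nat.card (PairT N 𝒢) * Nat.card (Fin s → AffT (X × X)) :=
    Nat.card_prod _ _
  have h4 : 0 < Nat.card (Fin s → AffT (X × X)) := Nat.card_pos
  have h4' : (Nat.card (Fin s → AffT (X × X)) : ℝ) ≠ 0 := by positivity
  unfold lam energyRM
  rw [h2, h3, Nat.card_eq_fintype_card (α := PairT N 𝒢), ← sum_div]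
  rcases Nat.eq_zero_or_pos (Fintype.card (PairT N 𝒢)) with h0 | h0
  · have : IsEmpty (PairT N 𝒢) := Fintype.card_eq_zero_iff.1 h0
    rw [h0]
    simp
  · have h5 : (Fintype.card (PairT N 𝒢) : ℝ) ≠ 0 := by positivity
    push_cast
    field_simp

end avg

end Vale.Agent.P318.H918
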