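import Vale.Agent.P318.H460.Numbers

/-!
# P318: the numbers of the code on the tree with direct-sum codes on the pair views
-/

open Filter

namespace Vale.Agent.P318.H918

open Vale.Agent.P318.H460 (poly_le_two_pow pe exists_depth exists_block Mv_le coll_le)

/-- number of local spaces of the final code -/
def bdF (V0 Nc q qh q1 NG : ℕ) : ℕ := V0 ^ 2 * (Nc * (1 + (V0 ^ 2 * q + (NG * qh) * (V0 * q1))))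

/-- The numbers needed for the code. -/
structure NumA (C ℓ : ℕ) where
  e : ℕ
  m' : ℕ
  n : ℕ
  Lv : ℕ
  eB : ℕ
  eD : ℕ
  N0 : ℕ
  V0 : ℕ
  w : ℕ
  a : ℕ
  J : ℕ
  α : ℕ
  S : ℕ
  jq : ℕ
  j1 : ℕ
  jh : ℕ
  W : ℕ
  he : 1 ≤ e
  hm' : 1 ≤ m'
  hn : 2 ≤ n
  hLv : 1 ≤ Lv
  hmen : m' ^ 2 * e ≤ n
  heBD : eB + eD = e
  hN0 : 0 < N0
  hD : 300 * (n + 1) * ((2 ^ Lv - 1) + 1) * ((2 * m' + 1) * (n * m')) < 2 ^ eD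
  hnD : n ≤ 2 ^ eD
  hN0' : (m' * e) ^ (2 ^ Lv) * (2 ^ eB * 2 ^ eD) < 2 * ((2 ^ Lv - 1) * n) * N0
  hκ1 : 2 ^ (2 * ℓ + 30) ≤ (m' * e) ^ (2 ^ Lv)
  hκ2 : (m' * e) ^ (2 ^ Lv) ≤ 2 ^ (4 * ℓ + 60)
  hV0 : ((2 ^ Lv - 1) + 1) ^ 2 * (N0 * ((2 ^ Lv - 1) + 1) + 1) * (2 ^ eD) ^ (2 ^ Lv - 1) ≤ V0
  hJ : 2 * w + 2 * J ≤ a
  h3a : 3 * a ≤ 2 ^ α
  hαS : α ≤ S
  hJS : S + 2 * α + 10 ≤ J
  hdS : 2 * (m' * e) ^ (2 * Lv + 2) ≤ 2 ^ S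
  hjq : 1 ≤ jq
  hjqa : 2 * w + 2 * jq ≤ a
  hjqe : 2 * ((2 * w + 1) * ((2 * (m' * e) ^ (2 * Lv + 2) + 2) * (w + 1))) < 2 ^ jq
  hj1 : 1 ≤ j1
  hj1e : 100 * ((2 * m' + 1) * (((m' * e) ^ (2 * Lv + 2) + 2) * (m' + 1))) ≤ 2 ^ j1
  hjh : 1 ≤ jh
  hla : 2 * jh + (2 * m' + 2 * j1) ≤ a
  hW0 : 2 ^ (2 * J + 3) * W ≤ 2 ^ w
  hW4 : 4 * W ≤ 2 ^ w
  hWm : 32 * W ≤ 2 ^ m'
  hk : 2 ^ (4 * ℓ + 70) ≤ 2 ^ m'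
  hW : 20 * ((bdF V0 (2 ^ ((10 * (S + 2 * α + 10) + 6) * S)) (2 ^ (2 * jq)) (2 ^ (2 * jh))
    (2 ^ (2 * j1)) (N0 * (2 ^ eD) ^ (2 ^ Lv - 1)) + 1) * 2 ^ (2 * ℓ + 20)) ≤ W
  hp : (4 * (((2 ^ Lv - 1 : ℕ) : ℝ) * n)) / ((2 ^ eB : ℕ) * (2 ^ eD : ℕ)) +
    (((m' * e) ^ (2 * Lv + 2) + 1 : ℕ) : ℝ) / ((2 ^ (2 * jh) : ℕ) : ℝ) ≤
    (1 / 2 : ℝ) ^ (6 * ℓ + 80)
  hs1 : 6 * ℓ + 100 ≤ 4 * a + 1
  hs2 : 4 * a + 1 ≤ C * ℓ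
  hdim : ((bdF V0 (2 ^ ((10 * (S + 2 * α + 10) + 6) * S)) (2 ^ (2 * jq)) (2 ^ (2 * jh))
    (2 ^ (2 * j1)) (N0 * (2 ^ eD) ^ (2 ^ Lv - 1)) + 1) + (V0 * 2 ^ (2 * j1) +
    (N0 * (2 ^ eD) ^ (2 ^ Lv - 1) * 2 ^ (2 * jh)) * (V0 * 2 ^ (2 * j1)))) * 2 ^ (4 * a + 1) ≤
    2 ^ (C * ℓ)

lemma log_small (C k : ℕ) : ∀ᶠ ℓ : ℕ in atTop, C * (Nat.log 2 ℓ) ^ k ≤ ℓ := by
  obtain ⟨L0, hL0⟩ := eventually_atTop.1 (poly_le_two_pow C k)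
  filter_upwards [eventually_ge_atTop (2 ^ L0), eventually_ge_atTop 1] with ℓ hℓ h1
  have h2 : L0 ≤ Nat.log 2 ℓ := Nat.le_log_of_pow_le (by norm_num) hℓ
  exact (hL0 _ h2).trans (Nat.pow_log_le_self 2 (by omega))

lemma eventually_n1 : ∀ᶠ ℓ : ℕ in atTop, (300 * ℓ * (7 * ℓ + 200)) ^ 20 ≤ 2 ^ ℓ := by
  obtain ⟨C, hC⟩ : ∃ C, C = 3000 ^ 20 := ⟨_, rfl⟩
  filter_upwards [eventually_ge_atTop 100000, poly_le_two_pow C 40] with ℓ hℓ hpoly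
  refine le_trans ?_ hpoly
  have h : 300 * ℓ * (7 * ℓ + 200) ≤ 3000 * ℓ ^ 2 := by nlinarith
  refine (Nat.pow_le_pow_left h 20).trans (le_of_eq ?_)
  rw [mul_pow, ← pow_mul, hC]

/-- the loss condition -/
lemma loss_lt' (ℓ m m' n n1 eD : ℕ) (hm' : m' = 300 * ℓ) (hn1lo : 100000 * ℓ ≤ n1) (hℓ : 1 ≤ ℓ)
    (hnn1 : n ≤ n1 ^ 2) (hmn1 : m ≤ n1) (hD1 : n1 ^ 8 ≤ 2 ^ eD) :
    300 * (n + 1) * m * ((2 * m' + 1) * (n * m')) < 2 ^ eD := by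
  have hpos : 1 ≤ n1 := by omega
  have h1 : n + 1 ≤ 2 * n1 ^ 2 := by
    have : 1 ≤ n1 ^ 2 := Nat.one_le_pow _ _ hpos
    omega
  have h2 : 2 * m' + 1 ≤ 3 * n1 := by omega
  have h3 : n * m' ≤ n1 ^ 2 * n1 := Nat.mul_le_mul hnn1 (by omega)
  calc 300 * (n + 1) * m * ((2 * m' + 1) * (n * m'))
      ≤ 300 * (2 * n1 ^ 2) * n1 * ((3 * n1) * (n1 ^ 2 * n1)) :=
        Nat.mul_le_mul (Nat.mul_le_mul (Nat.mul_le_mul_left _ h1) hmn1) (Nat.mul_le_mul h2 h3)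
    _ = 1800 * n1 ^ 7 := by ring
    _ < n1 * n1 ^ 7 := Nat.mul_lt_mul_of_pos_right (by omega) (by positivity)
    _ = n1 ^ 8 := by ring
    _ ≤ 2 ^ eD := hD1

/-- the local spaces have dimension `2 ^ O((log ℓ)^2)` -/
lemma dT_le (ℓ n1 Lv : ℕ) (hℓ : 100000 ≤ ℓ) (hn1lo : 100000 * ℓ ≤ n1)
    (hn1up3 : n1 ≤ ℓ ^ 3) (hLvB : 2 ^ Lv ≤ 4 * ℓ + 60) :
    2 * n1 ^ (2 * Lv + 2) + 2 ≤ 2 ^ (66 * (Nat.log 2 ℓ) ^ 2) := by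
  have hpos : 1 ≤ n1 := by omega
  obtain ⟨L, hL⟩ : ∃ L, L = Nat.log 2 ℓ := ⟨_, rfl⟩
  rw [← hL]
  have hL1 : 1 ≤ L := by rw [hL]; exact Nat.le_log_of_pow_le (by norm_num) (by omega)
  have hℓL : ℓ ≤ 2 ^ (2 * L) := by
    have h1 : ℓ < 2 ^ (L + 1) := by rw [hL]; exact Nat.lt_pow_succ_log_self (by norm_num) _
    exact h1.le.trans (Nat.pow_le_pow_right (by norm_num) (by omega))
  have hn1L : n1 ≤ 2 ^ (6 * L) := by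
    calc n1 ≤ ℓ ^ 3 := hn1up3
      _ ≤ (2 ^ (2 * L)) ^ 3 := Nat.pow_le_pow_left hℓL _
      _ = 2 ^ (6 * L) := by rw [← pow_mul]; exact pe (by ring)
  have hLvL : Lv ≤ 4 * L := by
    have h1 : 2 ^ Lv ≤ 2 ^ (4 * L) := by
      calc 2 ^ Lv ≤ 4 * ℓ + 60 := hLvB
        _ ≤ ℓ ^ 2 := by nlinarith
        _ ≤ (2 ^ (2 * L)) ^ 2 := Nat.pow_le_pow_left hℓL _
        _ = 2 ^ (4 * L) := by rw [← pow_mul]; exact pe (by ring)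
    exact (Nat.pow_le_pow_iff_right (by norm_num)).1 h1
  have h1 : 1 ≤ n1 ^ (2 * Lv + 2) := Nat.one_le_pow _ _ hpos
  calc 2 * n1 ^ (2 * Lv + 2) + 2 ≤ 4 * n1 ^ (2 * Lv + 2) := by omega
    _ ≤ n1 * n1 ^ (2 * Lv + 2) := Nat.mul_le_mul_right _ (by omega)
    _ = n1 ^ (2 * Lv + 3) := by ring
    _ ≤ n1 ^ (11 * L) := Nat.pow_le_pow_right hpos (by omega)
    _ ≤ (2 ^ (6 * L)) ^ (11 * L) := Nat.pow_le_pow_left hn1L _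
    _ = 2 ^ (66 * L ^ 2) := by rw [← pow_mul]; exact pe (by ring)

/-- the number of views -/
lemma V0_le (ℓ m κ n1 eD N0 : ℕ) (hκ : κ = n1 ^ m) (hκB : κ ≤ 2 ^ (4 * ℓ + 60))
    (hD3 : 2 ^ eD ≤ n1 ^ 9) (hN0 : N0 = κ * 2 ^ (7 * ℓ + 200)) (hmℓ : m ≤ 2 ^ ℓ) :
    m ^ 2 * (N0 * m + 1) * (2 ^ eD) ^ (m - 1) ≤ 2 ^ (50 * ℓ + 801) ∧
      N0 * (2 ^ eD) ^ (m - 1) ≤ 2 ^ (47 * ℓ + 800) := by
  have h0 := Mv_le ℓ m κ n1 eD N0 hκ hκB hD3 hN0 hmℓ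
  have h1 : 2 ^ (100 * ℓ + 1602) = (2 ^ (50 * ℓ + 801)) ^ 2 := by
    rw [← pow_mul]; exact pe (by ring)
  rw [h1] at h0
  refine ⟨(Nat.pow_le_pow_iff_left (by norm_num)).1 h0, ?_⟩
  have hDpow : (2 ^ eD) ^ (m - 1) ≤ 2 ^ (36 * ℓ + 540) := by
    by_cases hn1 : n1 = 0
    · subst hn1
      exfalso
      have : 1 ≤ 2 ^ eD := Nat.one_le_two_pow
      have h2 : (0 : ℕ) ^ 9 = 0 := by norm_num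
      omega
    calc (2 ^ eD) ^ (m - 1) ≤ (2 ^ eD) ^ m :=
          Nat.pow_le_pow_right (by positivity) (Nat.sub_le _ _)
      _ ≤ (n1 ^ 9) ^ m := Nat.pow_le_pow_left hD3 _
      _ = κ ^ 9 := by rw [hκ, ← pow_mul, ← pow_mul]; exact pe (by ring)
      _ ≤ (2 ^ (4 * ℓ + 60)) ^ 9 := Nat.pow_le_pow_left hκB _
      _ = 2 ^ (36 * ℓ + 540) := by rw [← pow_mul]; exact pe (by omega)
  have hN0up : N0 ≤ 2 ^ (11 * ℓ + 260) := by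
    rw [hN0]
    calc κ * 2 ^ (7 * ℓ + 200) ≤ 2 ^ (4 * ℓ + 60) * 2 ^ (7 * ℓ + 200) :=
          Nat.mul_le_mul_right _ hκB
      _ = 2 ^ (11 * ℓ + 260) := by rw [← pow_add]; exact pe (by omega)
  calc N0 * (2 ^ eD) ^ (m - 1) ≤ 2 ^ (11 * ℓ + 260) * 2 ^ (36 * ℓ + 540) :=
        Nat.mul_le_mul hN0up hDpow
    _ = 2 ^ (47 * ℓ + 800) := by rw [← pow_add]; exact pe (by omega)

/-- the final count -/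
lemma bd_le (ℓ V0 Nc q qh NG : ℕ) (hℓ : 100000 ≤ ℓ) (hV0 : V0 = 2 ^ (50 * ℓ + 801))
    (hNc : Nc ≤ 2 ^ ℓ) (hNG : NG ≤ 2 ^ (47 * ℓ + 800)) (hq : q = 2 ^ (2 * (2 * ℓ)))
    (hqh : qh = 2 ^ (2 * (4 * ℓ + 100))) :
    bdF V0 Nc q qh q NG ≤ 2 ^ (213 * ℓ) ∧ V0 * q + (NG * qh) * (V0 * q) ≤ 2 ^ (213 * ℓ) := by
  have h1 : V0 ^ 2 * q = 2 ^ (104 * ℓ + 1602) := by
    rw [hV0, hq, ← pow_mul, ← pow_add]; exact pe (by omega)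
  have h2' : V0 * q = 2 ^ (54 * ℓ + 801) := by
    rw [hV0, hq, ← pow_add]; exact pe (by omega)
  have h2 : NG * qh * (V0 * q) ≤ 2 ^ (109 * ℓ + 1801) := by
    rw [h2', hqh]
    calc _ ≤ 2 ^ (47 * ℓ + 800) * 2 ^ (2 * (4 * ℓ + 100)) * 2 ^ (54 * ℓ + 801) :=
          Nat.mul_le_mul_right _ (Nat.mul_le_mul_right _ hNG)
      _ = 2 ^ (109 * ℓ + 1801) := by
          rw [← pow_add, ← pow_add]; exact pe (by omega)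
  have h5 : 1 ≤ 2 ^ (109 * ℓ + 1801) := Nat.one_le_two_pow
  have h6 : 2 ^ (109 * ℓ + 1803) = 2 ^ (109 * ℓ + 1801) * 4 := by
    rw [show 109 * ℓ + 1803 = (109 * ℓ + 1801) + 2 by ring, pow_add]; norm_num
  have h3 : 1 + (V0 ^ 2 * q + NG * qh * (V0 * q)) ≤ 2 ^ (110 * ℓ) := by
    rw [h1]
    have h4 : 2 ^ (104 * ℓ + 1602) ≤ 2 ^ (109 * ℓ + 1801) :=
      Nat.pow_le_pow_right (by norm_num) (by omega)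
    have h7 : 2 ^ (109 * ℓ + 1803) ≤ 2 ^ (110 * ℓ) :=
      Nat.pow_le_pow_right (by norm_num) (by omega)
    omega
  have hV2 : V0 ^ 2 = 2 ^ (100 * ℓ + 1602) := by
    rw [hV0, ← pow_mul]; exact pe (by omega)
  refine ⟨?_, ?_⟩
  · unfold bdF
    rw [hV2] at h3 ⊢
    calc 2 ^ (100 * ℓ + 1602) * (Nc * (1 + (2 ^ (100 * ℓ + 1602) * q + NG * qh * (V0 * q))))
        ≤ 2 ^ (100 * ℓ + 1602) * (2 ^ ℓ * 2 ^ (110 * ℓ)) :=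
          Nat.mul_le_mul_left _ (Nat.mul_le_mul hNc h3)
      _ = 2 ^ (211 * ℓ + 1602) := by rw [← pow_add, ← pow_add]; exact pe (by omega)
      _ ≤ 2 ^ (213 * ℓ) := Nat.pow_le_pow_right (by norm_num) (by omega)
  · have h7 : 2 ^ (109 * ℓ + 1803) ≤ 2 ^ (213 * ℓ) :=
      Nat.pow_le_pow_right (by norm_num) (by omega)
    have h8 : 2 ^ (54 * ℓ + 801) ≤ 2 ^ (109 * ℓ + 1801) :=
      Nat.pow_le_pow_right (by norm_num) (by omega)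
    rw [h2'] at h2 ⊢
    omega

/-- the numbers of the tree -/
structure NumT (ℓ : ℕ) where
  n : ℕ
  Lv : ℕ
  eD : ℕ
  N0 : ℕ
  hn : 2 ≤ n
  hLv : 1 ≤ Lv
  hmen : (300 * ℓ) ^ 2 * (7 * ℓ + 200) ≤ n
  heD : eD ≤ ℓ
  hN0 : 0 < N0
  hD : 300 * (n + 1) * ((2 ^ Lv - 1) + 1) * ((2 * (300 * ℓ) + 1) * (n * (300 * ℓ))) < 2 ^ eD
  hnD : n ≤ 2 ^ eD
  hN0' : (300 * ℓ * (7 * ℓ + 200)) ^ (2 ^ Lv) * (2 ^ (7 * ℓ + 200 - eD) * 2 ^ eD) <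
    2 * ((2 ^ Lv - 1) * n) * N0
  hκ1 : 2 ^ (2 * ℓ + 30) ≤ (300 * ℓ * (7 * ℓ + 200)) ^ (2 ^ Lv)
  hκ2 : (300 * ℓ * (7 * ℓ + 200)) ^ (2 ^ Lv) ≤ 2 ^ (4 * ℓ + 60)
  hV0 : ((2 ^ Lv - 1) + 1) ^ 2 * (N0 * ((2 ^ Lv - 1) + 1) + 1) * (2 ^ eD) ^ (2 ^ Lv - 1) ≤
    2 ^ (50 * ℓ + 801)
  hNG : N0 * (2 ^ eD) ^ (2 ^ Lv - 1) ≤ 2 ^ (47 * ℓ + 800)
  hdT : 2 * (300 * ℓ * (7 * ℓ + 200)) ^ (2 * Lv + 2) + 2 ≤ 2 ^ (66 * (Nat.log 2 ℓ) ^ 2)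
  hp : (4 * (((2 ^ Lv - 1 : ℕ) : ℝ) * n)) / ((2 ^ (7 * ℓ + 200 - eD) : ℕ) * (2 ^ eD : ℕ)) +
    (1 / 2 : ℝ) ^ (6 * ℓ + 81) ≤ (1 / 2 : ℝ) ^ (6 * ℓ + 80)

theorem numbersT : ∀ᶠ ℓ : ℕ in atTop, Nonempty (NumT ℓ) := by
  filter_upwards [eventually_ge_atTop 100000, eventually_n1] with ℓ hℓ hn120'
  obtain ⟨n1, hn1eq⟩ : ∃ n1, 300 * ℓ * (7 * ℓ + 200) = n1 := ⟨_, rfl⟩
  rw [hn1eq] at hn120'
  have hn1lo : 100000 * ℓ ≤ n1 := by rw [← hn1eq]; nlinarith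
  have hn1up3 : n1 ≤ ℓ ^ 3 := by
    have h1 : n1 ≤ 3000 * ℓ ^ 2 := by rw [← hn1eq]; nlinarith
    have : 3000 * ℓ ^ 2 ≤ ℓ * ℓ ^ 2 := Nat.mul_le_mul_right _ (by omega)
    calc _ ≤ _ := h1.trans this
      _ = ℓ ^ 3 := by ring
  have hpos : 1 ≤ n1 := by omega
  have hpw : ∀ i ≤ 20, n1 ^ i ≤ 2 ^ ℓ := fun i hi =>
    (Nat.pow_le_pow_right hpos hi).trans hn120'
  have h2n : 2 ≤ n1 := by omega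
  have h2B : n1 ^ 2 ≤ 2 ^ (4 * ℓ + 60) := (hpw 2 (by norm_num)).trans
    (Nat.pow_le_pow_right (by norm_num) (by omega))
  obtain ⟨Lv, hLv1, hκB, hBκ, hmB⟩ := exists_depth n1 (4 * ℓ + 60) h2n h2B
  obtain ⟨eD, hD1, hD3⟩ := exists_block n1 h2n
  obtain ⟨m, hm⟩ : ∃ m, 2 ^ Lv = m := ⟨_, rfl⟩
  rw [hm] at hκB hBκ
  obtain ⟨κ, hκ⟩ : ∃ κ, n1 ^ m = κ := ⟨_, rfl⟩
  rw [hκ] at hκB hBκ
  have hκlo : 2 ^ (2 * ℓ + 30) < κ := by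
    have : (2 ^ (2 * ℓ + 30)) ^ 2 < κ ^ 2 := by
      rw [← pow_mul, show (2 * ℓ + 30) * 2 = 4 * ℓ + 60 by omega]; exact hBκ
    exact lt_of_pow_lt_pow_left₀ 2 (Nat.zero_le _) this
  have hmB' : m ≤ 4 * ℓ + 60 := by rw [← hm]; exact hmB
  have hmn1 : m ≤ n1 := by omega
  have hm2 : 2 ≤ m := by
    rw [← hm]
    calc 2 = 2 ^ 1 := rfl
      _ ≤ 2 ^ Lv := Nat.pow_le_pow_right (by norm_num) hLv1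
  have heDℓ : eD ≤ ℓ := by
    have h1 : 2 ^ eD ≤ 2 ^ ℓ := hD3.trans (hpw 9 (by norm_num))
    exact (Nat.pow_le_pow_iff_right (by norm_num)).1 h1
  obtain ⟨N0, hN0⟩ : ∃ N0, N0 = κ * 2 ^ (7 * ℓ + 200) := ⟨_, rfl⟩
  have hκpos : 0 < κ := lt_of_le_of_lt (Nat.zero_le _) hκlo
  have hN0pos : 0 < N0 := by rw [hN0]; exact Nat.mul_pos hκpos (Nat.two_pow_pos _)
  have hmℓ : m ≤ 2 ^ ℓ := hmn1.trans (by simpa using hpw 1 (by norm_num))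
  have hmsub : m - 1 + 1 = m := by omega
  obtain ⟨hV0up, hNGup⟩ := V0_le ℓ m κ n1 eD N0 hκ.symm hκB hD3 hN0 hmℓ
  obtain ⟨n, hn⟩ : ∃ n, n = (300 * ℓ) ^ 2 * (7 * ℓ + 200) := ⟨_, rfl⟩
  have hnn1 : n ≤ n1 ^ 2 := by
    rw [hn, ← hn1eq]
    calc (300 * ℓ) ^ 2 * (7 * ℓ + 200) ≤ (300 * ℓ) ^ 2 * (7 * ℓ + 200) ^ 2 :=
          Nat.mul_le_mul_left _ (Nat.le_self_pow (n := 2) (by norm_num) _)
      _ = (300 * ℓ * (7 * ℓ + 200)) ^ 2 := by ring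
  have hn2 : 2 ≤ n := by
    rw [hn]
    have h1 : 1 ≤ (300 * ℓ) ^ 2 := Nat.one_le_pow _ _ (by omega)
    calc 2 ≤ 7 * ℓ + 200 := by omega
      _ = 1 * (7 * ℓ + 200) := (one_mul _).symm
      _ ≤ _ := Nat.mul_le_mul_right _ h1
  have hloss := loss_lt' ℓ m (300 * ℓ) n n1 eD rfl hn1lo (by omega) hnn1 hmn1 hD1
  have hnD : n ≤ 2 ^ eD := hnn1.trans ((Nat.pow_le_pow_right hpos (by norm_num)).trans hD1)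
  have hcoll := coll_le ℓ eD ((m - 1) * n) heDℓ (by
    calc (m - 1) * n ≤ n1 * n1 ^ 2 := Nat.mul_le_mul ((Nat.sub_le _ _).trans hmn1) hnn1
      _ = n1 ^ 3 := by ring
      _ ≤ 2 ^ ℓ := hpw 3 (by norm_num))
  have hdT := dT_le ℓ n1 Lv hℓ hn1lo hn1up3 hmB
  refine ⟨⟨n, Lv, eD, N0, hn2, hLv1, hn.ge, heDℓ, hN0pos, ?_, hnD, ?_, ?_, ?_, ?_, ?_, ?_, ?_⟩⟩
  · rw [hm, hmsub]; exact hloss
  · rw [hm, hn1eq, hκ, ← pow_add, show 7 * ℓ + 200 - eD + eD = 7 * ℓ + 200 by omega, ← hN0]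
    have h1 : 1 ≤ (m - 1) * n := Nat.mul_pos (by omega) (by omega)
    calc N0 < 2 * N0 := by omega
      _ = 2 * 1 * N0 := by ring
      _ ≤ 2 * ((m - 1) * n) * N0 := Nat.mul_le_mul_right _ (Nat.mul_le_mul_left _ h1)
  · rw [hn1eq, hm, hκ]; exact hκlo.le
  · rw [hn1eq, hm, hκ]; exact hκB
  · rw [hm, hmsub]; exact hV0up
  · rw [hm]; exact hNGup
  · rw [hn1eq]; exact hdT
  · rw [hm]; push_cast at hcoll ⊢; exact hcoll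

end Vale.Agent.P318.H918
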