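import Vale.Agent.P318.H918.NumA

/-!
# P318: the numbers of the code on the tree, second part
-/

open Filter

namespace Vale.Agent.P318.H918

open Vale.Agent.P318.H460 (poly_le_two_pow pe)

lemma sqA (ℓ : ℕ) (h : 1 ≤ ℓ) : 2 * ((2 * (223 * ℓ) + 1) * (223 * ℓ + 1)) < 10 ^ 8 * ℓ ^ 2 := by
  calc 2 * ((2 * (223 * ℓ) + 1) * (223 * ℓ + 1)) ≤ 2 * ((500 * ℓ) * (300 * ℓ)) := by
        gcongr <;> omega
    _ = 300000 * ℓ ^ 2 := by ring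
    _ < 10 ^ 8 * ℓ ^ 2 := Nat.mul_lt_mul_of_pos_right (by norm_num) (by positivity)

lemma sqB (ℓ : ℕ) (h : 1 ≤ ℓ) : 100 * ((2 * (300 * ℓ) + 1) * (300 * ℓ + 1)) ≤ 10 ^ 8 * ℓ ^ 2 := by
  calc 100 * ((2 * (300 * ℓ) + 1) * (300 * ℓ + 1)) ≤ 100 * ((700 * ℓ) * (400 * ℓ)) := by
        gcongr <;> omega
    _ = 28000000 * ℓ ^ 2 := by ring
    _ ≤ 10 ^ 8 * ℓ ^ 2 := Nat.mul_le_mul_right _ (by norm_num)

/-- the hash has few collisions -/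
lemma hash_le (ℓ dT : ℕ) (h : 2 * dT + 2 ≤ 2 ^ ℓ) :
    ((dT + 1 : ℕ) : ℝ) / ((2 ^ (2 * (4 * ℓ + 100)) : ℕ) : ℝ) ≤ (1 / 2 : ℝ) ^ (6 * ℓ + 81) := by
  rw [div_le_iff₀ (by positivity)]
  have h1 : ((dT + 1 : ℕ) : ℝ) ≤ 2 ^ ℓ := by
    have : dT + 1 ≤ 2 ^ ℓ := by omega
    exact_mod_cast this
  have h2 : (1 / 2 : ℝ) ^ (6 * ℓ + 81) * ((2 ^ (2 * (4 * ℓ + 100)) : ℕ) : ℝ) = 2 ^ (2 * ℓ + 119) := by
    obtain ⟨u, hu⟩ : ∃ u, u = 6 * ℓ + 81 := ⟨_, rfl⟩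
    obtain ⟨v, hv⟩ : ∃ v, v = 2 * ℓ + 119 := ⟨_, rfl⟩
    have huv : 2 * (4 * ℓ + 100) = u + v := by omega
    rw [← hu, ← hv, huv]
    push_cast
    rw [pow_add 2 u v, ← mul_assoc, ← mul_pow]
    norm_num
  rw [h2]
  exact h1.trans (pow_le_pow_right₀ (by norm_num) (by omega))

lemma size_le (ℓ Bd : ℕ) (hℓ : 100000 ≤ ℓ) (h : Bd ≤ 2 ^ (213 * ℓ)) :
    20 * ((Bd + 1) * 2 ^ (2 * ℓ + 20)) ≤ 2 ^ (217 * ℓ) := by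
  have h1 : 1 ≤ 2 ^ (213 * ℓ) := Nat.one_le_two_pow
  calc _ ≤ 20 * ((2 ^ (213 * ℓ) + 2 ^ (213 * ℓ)) * 2 ^ (2 * ℓ + 20)) :=
        Nat.mul_le_mul_left _ (Nat.mul_le_mul_right _ (Nat.add_le_add h h1))
    _ = 40 * (2 ^ (213 * ℓ) * 2 ^ (2 * ℓ + 20)) := by ring
    _ ≤ 2 ^ 6 * (2 ^ (213 * ℓ) * 2 ^ (2 * ℓ + 20)) := Nat.mul_le_mul_right _ (by norm_num)
    _ = 2 ^ (6 + (213 * ℓ + (2 * ℓ + 20))) := by rw [← pow_add, ← pow_add]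
    _ ≤ 2 ^ (217 * ℓ) := Nat.pow_le_pow_right (by norm_num) (by omega)

lemma dim_le' (ℓ Bd R : ℕ) (hℓ : 100000 ≤ ℓ) (h : Bd ≤ 2 ^ (213 * ℓ)) (h2 : R ≤ 2 ^ (213 * ℓ)) :
    ((Bd + 1) + R) * 2 ^ (4 * (1000 * ℓ) + 1) ≤ 2 ^ (5000 * ℓ) := by
  have h1 : 1 ≤ 2 ^ (213 * ℓ) := Nat.one_le_two_pow
  calc ((Bd + 1) + R) * 2 ^ (4 * (1000 * ℓ) + 1)
      ≤ (2 ^ 2 * 2 ^ (213 * ℓ)) * 2 ^ (4 * (1000 * ℓ) + 1) :=
        Nat.mul_le_mul_right _ (by omega)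
    _ = 2 ^ (2 + 213 * ℓ + (4 * (1000 * ℓ) + 1)) := by rw [← pow_add, ← pow_add]
    _ ≤ 2 ^ (5000 * ℓ) := Nat.pow_le_pow_right (by norm_num) (by omega)

theorem numbersA : ∃ C ℓ0 : ℕ, ∀ ℓ ≥ ℓ0, Nonempty (NumA C ℓ) := by
  refine ⟨5000, ?_⟩
  rw [← eventually_atTop]
  filter_upwards [eventually_ge_atTop 100000, numbersT, log_small 100000 4,
    poly_le_two_pow (10 ^ 8) 2] with ℓ hℓ hT hlog4 hpoly
  obtain ⟨P⟩ := hT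
  have hdT := P.hdT
  obtain ⟨n1, hn1eq⟩ : ∃ n1, 300 * ℓ * (7 * ℓ + 200) = n1 := ⟨_, rfl⟩
  obtain ⟨dT, hdTe⟩ : ∃ dT, n1 ^ (2 * P.Lv + 2) = dT := ⟨_, rfl⟩
  rw [hn1eq, hdTe] at hdT
  obtain ⟨L, hL⟩ : ∃ L, Nat.log 2 ℓ = L := ⟨_, rfl⟩
  rw [hL] at hlog4 hdT
  have hL1 : 1 ≤ L := by rw [← hL]; exact Nat.le_log_of_pow_le (by norm_num) (by omega)
  have hLsq : L ≤ L ^ 2 := Nat.le_self_pow (by norm_num) _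
  have hL24 : L ^ 2 ≤ L ^ 4 := Nat.pow_le_pow_right (by omega) (by norm_num)
  have hSℓ : 66 * L ^ 2 ≤ ℓ := by omega
  have hdTℓ : 2 * dT + 2 ≤ 2 ^ ℓ := hdT.trans (Nat.pow_le_pow_right (by norm_num) hSℓ)
  have h2ℓ : 2 ^ (2 * ℓ) = 2 ^ ℓ * 2 ^ ℓ := by rw [← pow_add]; exact pe (by ring)
  have hNc : 2 ^ ((10 * (66 * L ^ 2 + 2 * (L + 13) + 10) + 6) * (66 * L ^ 2)) ≤ 2 ^ ℓ := by
    refine Nat.pow_le_pow_right (by norm_num) ?_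
    calc (10 * (66 * L ^ 2 + 2 * (L + 13) + 10) + 6) * (66 * L ^ 2)
        ≤ (1100 * L ^ 2) * (66 * L ^ 2) := Nat.mul_le_mul_right _ (by omega)
      _ = 72600 * L ^ 4 := by ring
      _ ≤ ℓ := by omega
  obtain ⟨Nc, hNce⟩ : ∃ Nc, 2 ^ ((10 * (66 * L ^ 2 + 2 * (L + 13) + 10) + 6) * (66 * L ^ 2)) = Nc :=
    ⟨_, rfl⟩
  rw [hNce] at hNc
  obtain ⟨V0, hV0⟩ : ∃ V0, V0 = 2 ^ (50 * ℓ + 801) := ⟨_, rfl⟩
  obtain ⟨hbd1, hbd2⟩ := bd_le ℓ V0 Nc _ _ _ hℓ hV0 hNc P.hNG rfl rfl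
  refine ⟨{
    e := 7 * ℓ + 200, m' := 300 * ℓ, n := P.n, Lv := P.Lv, eB := 7 * ℓ + 200 - P.eD, eD := P.eD,
    N0 := P.N0, V0 := V0, w := 223 * ℓ, a := 1000 * ℓ, J := ℓ, α := L + 13, S := 66 * L ^ 2,
    jq := 2 * ℓ, j1 := 2 * ℓ, jh := 4 * ℓ + 100, W := 2 ^ (217 * ℓ), he := by omega,
    hm' := by omega, hn := P.hn, hLv := P.hLv, hmen := P.hmen,
    heBD := by have := P.heD; omega, hN0 := P.hN0,
    hD := P.hD, hnD := P.hnD, hN0' := P.hN0', hκ1 := P.hκ1, hκ2 := P.hκ2,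
    hV0 := by rw [hV0]; exact P.hV0, hJ := by omega,
    h3a := ?_, hαS := by omega, hJS := by omega, hdS := ?_, hjq := by omega, hjqa := by omega,
    hjqe := ?_, hj1 := by omega, hj1e := ?_, hjh := by omega, hla := by omega, hW0 := ?_,
    hW4 := ?_, hWm := ?_, hk := Nat.pow_le_pow_right (by norm_num) (by omega), hW := ?_,
    hp := ?_, hs1 := by omega, hs2 := by omega, hdim := ?_ }⟩
  · have h1 : ℓ < 2 ^ (L + 1) := by rw [← hL]; exact Nat.lt_pow_succ_log_self (by norm_num) _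
    have h2 : 2 ^ (L + 13) = 2 ^ (L + 1) * 4096 := by
      rw [show L + 13 = (L + 1) + 12 by ring, pow_add]; norm_num
    omega
  · rw [hn1eq, hdTe]; omega
  · rw [hn1eq, hdTe, h2ℓ]
    calc 2 * ((2 * (223 * ℓ) + 1) * ((2 * dT + 2) * (223 * ℓ + 1)))
        = (2 * dT + 2) * (2 * ((2 * (223 * ℓ) + 1) * (223 * ℓ + 1))) := by ring
      _ < (2 * dT + 2) * (10 ^ 8 * ℓ ^ 2) :=
          Nat.mul_lt_mul_of_pos_left (sqA ℓ (by omega)) (by omega)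
      _ ≤ 2 ^ ℓ * 2 ^ ℓ := Nat.mul_le_mul hdTℓ hpoly
  · rw [hn1eq, hdTe, h2ℓ]
    calc 100 * ((2 * (300 * ℓ) + 1) * ((dT + 2) * (300 * ℓ + 1)))
        = (dT + 2) * (100 * ((2 * (300 * ℓ) + 1) * (300 * ℓ + 1))) := by ring
      _ ≤ 2 ^ ℓ * 2 ^ ℓ := Nat.mul_le_mul (by omega) ((sqB ℓ (by omega)).trans hpoly)
  · rw [← pow_add]; exact Nat.pow_le_pow_right (by norm_num) (by omega)
  · calc 4 * 2 ^ (217 * ℓ) = 2 ^ (217 * ℓ + 2) := by rw [pow_add]; ring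
      _ ≤ _ := Nat.pow_le_pow_right (by norm_num) (by omega)
  · calc 32 * 2 ^ (217 * ℓ) = 2 ^ (217 * ℓ + 5) := by rw [pow_add]; ring
      _ ≤ _ := Nat.pow_le_pow_right (by norm_num) (by omega)
  · rw [hNce]
    exact size_le ℓ _ hℓ hbd1
  · rw [hn1eq, hdTe]
    exact le_trans (add_le_add le_rfl (hash_le ℓ dT hdTℓ)) P.hp
  · rw [hNce]
    exact dim_le' ℓ _ _ hℓ hbd1 hbd2

end Vale.Agent.P318.H918
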