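import Vale.Agent.P318.H308.Main6
import Vale.Agent.P318.H918.CodeA
import Vale.Agent.P318.H986.Global
import Vale.Agent.P318.H249.Sample
import Vale.Agent.P318.H770.Ext
import Vale.Agent.P318.H653.NodeFull
import Vale.Agent.P318.H40.Low

/-! P318, Q2: `g(n) ≥ (log n)^c`, all inputs together. -/

namespace Vale.Agent.P318.H918

theorem code6_all : H6.SpecCODE6 :=
  spec_code6 H770.spec_tree H249.spec_sample H40.spec_low2
    (H986.spec_global H653.spec_node_full H40.spec_low)

/-- the integrality gap is at least a power of `log n` -/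
theorem gap_log : ∃ c : ℝ, 0 < c ∧ ∃ n₀ : ℕ, ∀ n ≥ n₀, Real.log n ^ c ≤ H308.gap n :=
  H308.main_gap6_of_code code6_all

end Vale.Agent.P318.H918
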