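import Vale.Agent.P318.H918.Core
import Vale.Agent.P318.H653.NodeInst
import Vale.Agent.P318.H269.CodeProps

/-!
# P318, section 9: losslessness and gluing for the family of all views
-/

open Finset

namespace Vale.Agent.P318.H918

open Vale.Agent.P318 Vale.Agent.P318.H937
open Vale.Agent.P318.H269 (ViewT)

section sums

variable {X : Type} [AddCommGroup X] [Module (ZMod 2) X] {M Bn Dn : ℕ}
  (N : NodeSys X M (Fin Bn × Fin Dn)) (𝒢 : Finset (Fin M → Fin Bn))

/-- the seeds of a grid -/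
def gridS (g : Fin M → Fin Bn) : Fin M → Finset (Fin Bn × Fin Dn) := fun v => {g v} ×ˢ univ

theorem card_gridS (g : Fin M → Fin Bn) (v : Fin M) : (gridS (Dn := Dn) g v).card = Dn := by
  simp [gridS]

theorem mem_pi_gridS {g : Fin M → Fin Bn} {y : Fin M → Fin Bn × Fin Dn} :
    y ∈ Fintype.piFinset (gridS g) ↔ (fun v => (y v).1) = g := by
  rw [Fintype.mem_piFinset]
  constructor
  · intro h
    funext v
    have := h v
    simp only [gridS, mem_product, mem_singleton, mem_univ, and_true] at this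
    exact this
  · rintro rfl v
    simp [gridS]

/-- Sum over all views = sum over the up-closed sets, the grids and the seeds of the grid. -/
theorem sum_views [Fintype (ViewT N 𝒢)]
    (f : Finset (Fin M) × (Fin M → Fin Bn × Fin Dn) → ℕ) :
    ∑ T : ViewT N 𝒢, f T.1 =
      open Classical in
      ∑ R ∈ univ.filter (fun R => N.Up R ∧ (N.minl R).card ≤ 2), ∑ g ∈ 𝒢,
        ∑ y ∈ Fintype.piFinset (gridS g), f (R, y) := by
  classical
  have h1 : ∑ T : ViewT N 𝒢, f T.1 = ∑ T ∈ univ.filter (fun T => IsView N 𝒢 T), f T := by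
    rw [sum_subtype (univ.filter fun T => IsView N 𝒢 T) (p := fun T => IsView N 𝒢 T)
      (fun x => by simp)]
  have h2 : (univ.filter fun T => IsView N 𝒢 T) =
      (univ.filter fun R => N.Up R ∧ (N.minl R).card ≤ 2) ×ˢ
      (univ.filter fun y : Fin M → Fin Bn × Fin Dn => (fun v => (y v).1) ∈ 𝒢) := by
    ext T
    rw [mem_product, mem_filter, mem_filter, mem_filter]
    simp only [mem_univ, true_and, IsView, and_assoc]
  rw [h1, h2, sum_product]
  refine sum_congr rfl fun R _ => ?_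
  rw [← sum_fiberwise_of_maps_to (s := univ.filter fun y : Fin M → Fin Bn × Fin Dn =>
    (fun v => (y v).1) ∈ 𝒢) (t := 𝒢) (g := fun y v => (y v).1) (fun y hy => by
      simpa using hy)]
  refine sum_congr rfl fun g hg => sum_congr ?_ fun _ _ => rfl
  ext y
  rw [mem_pi_gridS]
  simp only [mem_filter, mem_univ, true_and]
  constructor
  · exact fun h => h.2
  · intro h
    exact ⟨by rw [h]; exact hg, h⟩

end sums

section lossy

variable {X : Type} [AddCommGroup X] [Module (ZMod 2) X] [Fintype X] [DecidableEq X]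
  {M n m' dT Bn Dn : ℕ}

/-- The family of all views loses at most a hundredth of every small set of pairs. -/
theorem lossy_views_fine (hLOW2 : SpecLOW2) (N : NodeSys X M (Fin Bn × Fin Dn))
    (hN : N.Good n m' dT)
    (h300 : 300 * (n + 1) * (M + 1) * ((2 * m' + 1) * (n * m')) < Dn)
    (𝒢 : Finset (Fin M → Fin Bn)) [Fintype (ViewT N 𝒢)] (U : Finset (X × X))
    (hU : U.card ≤ 2 ^ m') :
    99 * (Fintype.card (ViewT N 𝒢) * U.card) ≤ 100 * ∑ T : ViewT N 𝒢,
      (U.image fun p : X × X => (N.view T.1.1 T.1.2 p.1, N.view T.1.1 T.1.2 p.2)).card := by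
  classical
  have hD : 0 < Dn := by omega
  have hDr : (0 : ℝ) < Dn := by exact_mod_cast hD
  have h40 : 100 * (M * ((2 * m' + 1) * (n * m'))) ≤ Dn := by
    refine le_trans ?_ h300.le
    have h1 : 100 * M ≤ 300 * (n + 1) * (M + 1) := by nlinarith
    calc 100 * (M * ((2 * m' + 1) * (n * m'))) = (100 * M) * ((2 * m' + 1) * (n * m')) := by ring
      _ ≤ _ := Nat.mul_le_mul_right _ h1
  have key : ∀ (R : Finset (Fin M)) (g : Fin M → Fin Bn),
      99 * (Dn ^ M * U.card) ≤ 100 * ∑ y ∈ Fintype.piFinset (gridS (Dn := Dn) g),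
        (U.image fun p : X × X => (N.view R y p.1, N.view R y p.2)).card := by
    intro R g
    have h1 := hLOW2 X M n m' dT Dn (Fin Bn × Fin Dn) N hN (gridS g) (card_gridS g) hD R U hU
    have h2 : (99 / 100 : ℝ) ≤ 1 - M * ((2 * m' + 1) * (n * m')) / Dn := by
      have h3 : ((M : ℝ) * ((2 * m' + 1) * (n * m')) / Dn) ≤ 1 / 100 := by
        rw [div_le_iff₀ hDr]
        have h4 : (100 * (M * ((2 * m' + 1) * (n * m'))) : ℝ) ≤ Dn := by exact_mod_cast h40
        linarith
      linarith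
    have h5 : (99 / 100 : ℝ) * ((Dn : ℝ) ^ M * U.card) ≤
        ∑ y ∈ Fintype.piFinset (gridS (Dn := Dn) g),
          ((U.image (Prod.map (N.view R y) (N.view R y))).card : ℝ) := by
      refine le_trans ?_ h1
      rw [mul_assoc]
      exact mul_le_mul_of_nonneg_right h2 (by positivity)
    have h6 : ((99 * (Dn ^ M * U.card) : ℕ) : ℝ) ≤
        ((100 * ∑ y ∈ Fintype.piFinset (gridS (Dn := Dn) g),
          (U.image (Prod.map (N.view R y) (N.view R y))).card : ℕ) : ℝ) := by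
      push_cast
      linarith
    exact_mod_cast h6
  have h1 := sum_views N 𝒢 fun _ => 1
  have h2 := sum_views N 𝒢 fun T =>
    (U.image fun p : X × X => (N.view T.1 T.2 p.1, N.view T.1 T.2 p.2)).card
  rw [h2]
  have h3 : Fintype.card (ViewT N 𝒢) =
      ∑ R ∈ univ.filter (fun R => N.Up R ∧ (N.minl R).card ≤ 2), ∑ g ∈ 𝒢, Dn ^ M := by
    rw [← card_univ, card_eq_sum_ones, h1]
    refine sum_congr rfl fun R _ => sum_congr rfl fun g _ => ?_
    rw [← card_eq_sum_ones, Fintype.card_piFinset, prod_congr rfl fun v _ => card_gridS g v]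
    simp
  rw [h3, sum_mul, mul_sum, mul_sum]
  refine sum_le_sum fun R _ => ?_
  rw [sum_mul, mul_sum, mul_sum]
  exact sum_le_sum fun g _ => key R g

theorem lossy_views (hLOW2 : SpecLOW2) (N : NodeSys X M (Fin Bn × Fin Dn))
    (hN : N.Good n m' dT)
    (h300 : 300 * (n + 1) * (M + 1) * ((2 * m' + 1) * (n * m')) < Dn)
    (𝒢 : Finset (Fin M → Fin Bn)) [Fintype (ViewT N 𝒢)] :
    Lossy (fun (T : ViewT N 𝒢) (p : X × X) =>
      (N.view T.1.1 T.1.2 p.1, N.view T.1.1 T.1.2 p.2)) (2 ^ m') := by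
  intro U hU
  have h1 := lossy_views_fine hLOW2 N hN h300 𝒢 U hU
  have h2 : 39 * (Fintype.card (ViewT N 𝒢) * U.card) ≤ 40 * ∑ T : ViewT N 𝒢,
      (U.image fun p : X × X => (N.view T.1.1 T.1.2 p.1, N.view T.1.1 T.1.2 p.2)).card := by
    omega
  exact h2

end lossy

section glue

variable {X : Type} [AddCommGroup X] [Module (ZMod 2) X] [Fintype X] [DecidableEq X]
  {M n m' dT Bn Dn : ℕ}

omit [Fintype X] [DecidableEq X] in
theorem isView_erase {N : NodeSys X M (Fin Bn × Fin Dn)} {𝒢 : Finset (Fin M → Fin Bn)}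
    {R : Finset (Fin M)} {y : Fin M → Fin Bn × Fin Dn} (h : IsView N 𝒢 (R, y)) {v : Fin M}
    (hv : v ∈ N.minl R) : IsView N 𝒢 (R.erase v, y) := by
  refine ⟨?_, (H653.card_minl_erase N hv).trans h.2.1, h.2.2⟩
  intro w hw u hu
  have hw' := mem_erase.1 hw
  refine mem_erase.2 ⟨?_, h.1 w hw'.2 hu⟩
  rintro rfl
  exact (mem_filter.1 hv).2 w hw'.2 hu

theorem glue_views (hGL : SpecGLOBAL) (N : NodeSys X M (Fin Bn × Fin Dn))
    (hN : N.Good n m' dT)
    (h300 : 300 * (n + 1) * (M + 1) * ((2 * m' + 1) * (n * m')) < Dn) (hnD : n ≤ Dn)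
    (hm' : 1 ≤ m') (W : ℕ) (hW : 8 * W ≤ 2 ^ m')
    (𝒢 : Finset (Fin M → Fin Bn)) (h𝒢 : 𝒢.Nonempty) (hconn : GridConn 𝒢) :
    Glue (fun T : ViewT N 𝒢 => N.view T.1.1 T.1.2) W (2 * W) := by
  classical
  intro μ hμs _ hμc
  set μ' : Finset (Fin M) × (Fin M → Fin Bn × Fin Dn) → X → ZMod 2 :=
    fun T => if h : IsView N 𝒢 T then μ ⟨T, h⟩ else 0 with hμ'
  have hμ'1 : ∀ T (h : IsView N 𝒢 T), μ' T = μ ⟨T, h⟩ := fun T h => dif_pos h
  obtain ⟨U, hU1, hU2⟩ := hGL X M n m' dT Bn Dn W N hN h300 hnD hm' hW 𝒢 h𝒢 hconn μ'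
    (by
      intro T hT
      rw [hμ'1 T hT]
      exact hμs _)
    (by
      intro R y y' h h' hyy
      rw [hμ'1 _ h, hμ'1 _ h']
      have h1 := hμc ⟨(R, y), h⟩ ⟨(R, y'), h'⟩ LinearMap.id (by
        rw [LinearMap.id_comp]
        exact H653.view_congr N hyy)
      rw [← h1]
      exact (H653.push_id _).symm)
    (by
      intro R y v h hv
      rw [hμ'1 _ h, hμ'1 _ (isView_erase h hv)]
      refine hμc ⟨(R, y), h⟩ ⟨(R.erase v, y), isView_erase h hv⟩ (N.op v (y v)) ?_
      ext x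
      exact (H653.view_erase N h.1 (mem_filter.1 hv).1 y x).symm)
  refine ⟨U, hU1, fun T => ?_⟩
  rw [← hμ'1 T.1 T.2]
  exact hU2 T.1 T.2

end glue

end Vale.Agent.P318.H918
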