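import Vale.Agent.P318.H918.Comp
import Vale.Agent.P318.H918.Views
import Vale.Agent.P318.H986.VLoss

/-!
# P318: the code for the tree space with views of dimension `O(log)`

The pair views of the tree composed with codes for spaces of dimension at most `2 dT`, together
with a lossless family `ν`, a hash family `hs` and the exactness of the joint maps `(hs, ν)`.
-/

open Finset

namespace Vale.Agent.P318.H918

open Vale.Agent.P318 Vale.Agent.P318.H937
open Vale.Agent.P318.H283 (V2 VLoss HasCond CodeFor CodeP)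
open Vale.Agent.P318.H269 (ViewT nonempty_view isView_empty finrank_range_prod_le)

/-- hash families with `qh` members, `l` bits, at most `kh` members kill a nonzero element -/
def HasHash (l d qh kh : ℕ) : Prop :=
  ∀ r ≤ d, ∃ H : Fin qh → ((Fin r → ZMod 2) →ₗ[ZMod 2] V2 l),
    ∀ y, y ≠ 0 → (univ.filter fun z => H z y = 0).card ≤ kh

section lemmas

variable {X : Type} [Fintype X] [DecidableEq X]

omit [Fintype X] [DecidableEq X] in
/-- A family which is lossless on average composed with lossless families. -/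
theorem lossless_comp {𝒱 : Type} [Fintype 𝒱] {Z : Type} [DecidableEq Z] (π : 𝒱 → X → Z)
    {W' : ℕ} (hL : ∀ U : Finset X, U.card ≤ W' →
      99 * (Fintype.card 𝒱 * U.card) ≤ 100 * ∑ T, (U.image (π T)).card) {Y : 𝒱 → Type} [∀ T, DecidableEq (Y T)]
    (pv : ∀ T, X → Y T) (jv : ∀ T, Y T → Z) (hjv : ∀ T, Function.Injective (jv T))
    (hjp : ∀ T x, jv T (pv T x) = π T x) {q1 : ℕ} (hq1 : 0 < q1) {A : Type} [DecidableEq A]
    (E : ∀ T, Fin q1 → Y T → A) {e1 : ℝ} (he1 : e1 ≤ 1 / 100)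
    (hE : ∀ T, Lossless univ (E T) W' e1) :
    Lossless univ (fun (z : 𝒱 × Fin q1) x => E z.1 z.2 (pv z.1 x)) W' (1 / 40) := by
  intro U hU
  have h1 := hL U hU
  have h2 : ∀ T : 𝒱, (1 - e1) * q1 * ((U.image (π T)).card : ℝ) ≤
      ∑ v : Fin q1, ((U.image fun x => E T v (pv T x)).card : ℝ) := by
    intro T
    have h3 := hE T (U.image (pv T)) (card_image_le.trans hU)
    rw [card_univ, Fintype.card_fin] at h3
    have h4 : (U.image (pv T)).card = (U.image (π T)).card := by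
      rw [← card_image_of_injective (U.image (pv T)) (hjv T), image_image]
      congr 1
      refine image_congr fun x _ => ?_
      exact hjp T x
    rw [h4] at h3
    refine h3.trans (le_of_eq ?_)
    refine sum_congr rfl fun v _ => ?_
    rw [image_image]
    rfl
  have h3 : ((univ : Finset (𝒱 × Fin q1)).card : ℝ) = (Fintype.card 𝒱 : ℝ) * q1 := by
    rw [card_univ, Fintype.card_prod, Fintype.card_fin]
    push_cast
    rfl
  rw [h3, Fintype.sum_prod_type]
  have h4 : ∑ T : 𝒱, (1 - e1) * q1 * ((U.image (π T)).card : ℝ) ≤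
      ∑ T : 𝒱, ∑ v : Fin q1, ((U.image fun x => E T v (pv T x)).card : ℝ) :=
    sum_le_sum fun T _ => h2 T
  refine le_trans ?_ h4
  rw [← mul_sum]
  have h5 : (99 : ℝ) * (Fintype.card 𝒱 * U.card) ≤
      100 * ∑ T : 𝒱, ((U.image (π T)).card : ℝ) := by
    exact_mod_cast h1
  have hq1r : (0 : ℝ) < q1 := by exact_mod_cast hq1
  set A : ℝ := (Fintype.card 𝒱 : ℝ) * U.card with hA
  set S : ℝ := ∑ T : 𝒱, ((U.image (π T)).card : ℝ) with hS
  have hA0 : 0 ≤ A := by positivity
  have h6 : (39 / 40 : ℝ) * A ≤ (1 - e1) * S := by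
    have h7 : (99 / 100 : ℝ) ≤ 1 - e1 := by linarith
    have h8 : (99 / 100 : ℝ) * A ≤ S := by linarith
    have h9 : (99 / 100 : ℝ) * ((99 / 100 : ℝ) * A) ≤ (1 - e1) * S :=
      mul_le_mul h7 h8 (by positivity) (by linarith)
    linarith
  calc (1 - 1 / 40) * ((Fintype.card 𝒱 : ℝ) * q1) * U.card
      = q1 * ((39 / 40 : ℝ) * A) := by rw [hA]; ring
    _ ≤ q1 * ((1 - e1) * S) := mul_le_mul_of_nonneg_left h6 hq1r.le
    _ = (1 - e1) * q1 * S := by ring

/-- Collisions of a composed hash family: `bad` = the outer index does not separate. -/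
theorem collision_comp {Ω : Type} [Fintype Ω] {qh kh : ℕ} (hqh : 0 < qh) (bad : Finset Ω)
    {B : Type} [DecidableEq B] (f f' : Ω → Fin qh → B)
    (h : ∀ ω, ω ∉ bad → (univ.filter fun z => f ω z = f' ω z).card ≤ kh) {p : ℝ}
    (hp : (bad.card : ℝ) ≤ p * Fintype.card Ω) :
    ((univ.filter fun θ : Ω × Fin qh => f θ.1 θ.2 = f' θ.1 θ.2).card : ℝ) ≤
      (p + kh / qh) * (Fintype.card Ω * qh) := by
  classical
  have h3 : ∀ ω : Ω, (univ.filter fun z : Fin qh => f ω z = f' ω z).card ≤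
      (if ω ∈ bad then qh else 0) + kh := by
    intro ω
    split_ifs with h0
    · refine (card_le_univ _).trans ?_
      rw [Fintype.card_fin]
      omega
    · rw [zero_add]
      exact h ω h0
  have h4 : (univ.filter fun θ : Ω × Fin qh => f θ.1 θ.2 = f' θ.1 θ.2).card =
      ∑ ω, (univ.filter fun z : Fin qh => f ω z = f' ω z).card := by
    rw [card_filter, Fintype.sum_prod_type]
    refine sum_congr rfl fun ω _ => ?_
    rw [card_filter]
  have h2 : (univ.filter fun θ : Ω × Fin qh => f θ.1 θ.2 = f' θ.1 θ.2).card ≤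
      bad.card * qh + Fintype.card Ω * kh := by
    rw [h4]
    refine (sum_le_sum fun ω _ => h3 ω).trans ?_
    rw [sum_add_distrib, sum_const, card_univ, smul_eq_mul, sum_ite_mem, univ_inter, sum_const,
      smul_eq_mul]
  have hqhr : (0 : ℝ) < qh := by exact_mod_cast hqh
  have h5 : ((univ.filter fun θ : Ω × Fin qh => f θ.1 θ.2 = f' θ.1 θ.2).card : ℝ) ≤
      (bad.card : ℝ) * qh + Fintype.card Ω * kh := by exact_mod_cast h2
  refine h5.trans ?_
  have h6 : (p + kh / qh) * (Fintype.card Ω * qh) =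
      p * Fintype.card Ω * qh + Fintype.card Ω * kh := by
    field_simp
  rw [h6]
  have h7 := mul_le_mul_of_nonneg_right hp hqhr.le
  linarith

end lemmas

section tree

variable {X : Type} [AddCommGroup X] [Module (ZMod 2) X] [Fintype X] [DecidableEq X]
  {M n m' dT Bn Dn N0 : ℕ}

theorem tree_pkg (hLOW2 : SpecLOW2) (hGL : SpecGLOBAL) (N : NodeSys X M (Fin Bn × Fin Dn))
    (hN : N.Good n m' dT)
    (h300 : 300 * (n + 1) * (M + 1) * ((2 * m' + 1) * (n * m')) < Dn) (hnD : n ≤ Dn)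
    (hm' : 1 ≤ m') (𝒢 : Finset (Fin M → Fin Bn)) (h𝒢 : 𝒢.Nonempty) (hconn : GridConn 𝒢)
    [Fintype (ViewT N 𝒢)]
    (G0 : Fin N0 → Fin M → Fin Bn) (hG0 : ∀ i, G0 i ∈ 𝒢) (p : ℝ)
    (hp : ∀ x : X, x ≠ 0 →
      ((univ.filter fun ij : Fin N0 × (Fin M → Fin Dn) =>
        N.view ∅ (fun v => (G0 ij.1 v, ij.2 v)) x = 0).card : ℝ) ≤
      p * (N0 * (Dn : ℝ) ^ M))
    {W W0 h a a0 l D Nc q q1 qh kh : ℕ} {e e1 : ℝ}
    (hcode : CodeP a D W0 h (2 * dT) Nc) (hq : 0 < q) (he : e < 1 / 2)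
    (hcond : HasCond a W0 (2 * dT) q e) (hW0 : h * W ≤ W0) (hW4 : 4 * W ≤ W0)
    (hWm : 32 * W ≤ 2 ^ m') (hq1 : 0 < q1) (he1 : e1 ≤ 1 / 100)
    (hcond1 : HasCond a0 (2 ^ m') dT q1 e1) (hla : l + a0 ≤ a) (hqh : 0 < qh)
    (hhash : HasHash l dT qh kh) :
    ∃ (ι : Type) (_ : Fintype ι) (τ : ι → X →ₗ[ZMod 2] V2 D)
      (ν : ViewT N 𝒢 × Fin q1 → X →ₗ[ZMod 2] V2 a0)
      (hs : (Fin N0 × (Fin M → Fin Dn)) × Fin qh → X →ₗ[ZMod 2] V2 l),
      Fintype.card ι ≤ Fintype.card (ViewT N 𝒢) ^ 2 * (Nc * (1 +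
        (Fintype.card (ViewT N 𝒢) ^ 2 * q +
          (N0 * Dn ^ M * qh) * (Fintype.card (ViewT N 𝒢) * q1)))) ∧
      Lossless univ (fun z x => ν z x) (2 ^ m') (1 / 40) ∧
      (∀ x x' : X, x ≠ x' → ((univ.filter fun θ => hs θ x = hs θ x').card : ℝ) ≤
        (p + kh / qh) * (N0 * (Dn : ℝ) ^ M * qh)) ∧
      ∀ B : X → ZMod 2, (∀ i, sz (push (τ i) B) ≤ W) →
        ∃ U : X → ZMod 2, 361 * sz U ≤ 800 * W ∧ (∀ i, push (τ i) U = push (τ i) B) ∧
          ∀ θ z, push (fun x => (hs θ x, ν z x)) U = push (fun x => (hs θ x, ν z x)) B := by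
  classical
  have hD : 0 < Dn := by omega
  have hne : Nonempty (ViewT N 𝒢) := nonempty_view N 𝒢 h𝒢 hD
  set π : ViewT N 𝒢 → X →ₗ[ZMod 2] X := fun T => N.view T.1.1 T.1.2 with hπ
  have hL : Lossy (fun T (p : X × X) => (π T p.1, π T p.2)) (2 ^ m') :=
    lossy_views hLOW2 N hN h300 𝒢
  have hL1 : ∀ U : Finset X, U.card ≤ 2 ^ m' → 99 * (Fintype.card (ViewT N 𝒢) * U.card) ≤
      100 * ∑ T : ViewT N 𝒢, (U.image fun x => π T x).card := by
    intro U hU
    have hinj : Function.Injective fun x : X => (x, x) := fun x y h => (Prod.ext_iff.1 h).1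
    have h1 := lossy_views_fine hLOW2 N hN h300 𝒢 (U.image fun x => (x, x))
      (by rw [card_image_of_injective _ hinj]; exact hU)
    rw [card_image_of_injective _ hinj] at h1
    refine h1.trans (le_of_eq ?_)
    congr 1
    refine sum_congr rfl fun T _ => ?_
    rw [image_image, ← card_image_of_injective (U.image fun x => π T x) hinj, image_image]
    rfl
  have hdim1 : ∀ T : ViewT N 𝒢, Module.finrank (ZMod 2) (LinearMap.range (π T)) ≤ dT :=
    fun T => hN.dim T.1.1 T.2.1 T.2.2.1 T.1.2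
  -- factorisations of the single views
  have hfac := fun T : ViewT N 𝒢 => exists_factor (π T) _ rfl
  choose pv jv hpv hjv hjpv using hfac
  have hr' : ∀ T : ViewT N 𝒢, Module.finrank (ZMod 2) (Fin (Module.finrank (ZMod 2)
      (LinearMap.range (π T))) → ZMod 2) ≤ dT := by
    intro T
    rw [Module.finrank_fin_fun]
    exact hdim1 T
  have hgv := fun T : ViewT N 𝒢 => LinearMap.exists_leftInverse_of_injective (jv T)
    (LinearMap.ker_eq_bot.2 (hjv T))
  choose gv hgv using hgv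
  have hgp : ∀ T x, gv T (π T x) = pv T x := by
    intro T x
    have h1 := LinearMap.congr_fun (hjpv T) x
    have h2 := LinearMap.congr_fun (hgv T) (pv T x)
    rw [LinearMap.comp_apply] at h1 h2
    rw [← h1, h2]
    rfl
  choose E hE0 using fun T : ViewT N 𝒢 => hcond1 _ (hr' T)
  have hE := fun T : ViewT N 𝒢 => (hE0 T).single
  choose H hH using fun T : ViewT N 𝒢 => hhash _ (hdim1 T)
  -- the lossless family and the hash family
  set ν : ViewT N 𝒢 × Fin q1 → X →ₗ[ZMod 2] V2 a0 := fun z => E z.1 z.2 ∘ₗ pv z.1 with hν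
  set T0 : Fin N0 × (Fin M → Fin Dn) → ViewT N 𝒢 :=
    fun ij => ⟨(∅, fun v => (G0 ij.1 v, ij.2 v)), isView_empty N 𝒢 (hG0 ij.1) ij.2⟩ with hT0
  set hs : (Fin N0 × (Fin M → Fin Dn)) × Fin qh → X →ₗ[ZMod 2] V2 l :=
    fun θ => H (T0 θ.1) θ.2 ∘ₗ pv (T0 θ.1) with hhs
  -- joint maps
  obtain ⟨J, hJ⟩ := H986.exists_inj (Y := V2 l × V2 a0) (k := a) (by
    rw [Module.finrank_prod, Module.finrank_fin_fun, Module.finrank_fin_fun]
    exact hla)
  obtain ⟨ι, hι, τ, hcard, hex⟩ := comp_exact π (Fintype.card_pos (α := ViewT N 𝒢))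
    (W := W) (W' := 2 ^ m') (W2 := 2 * (2 * (2 * W))) hL
    (glue_views hGL N hN h300 hnD hm' (2 * (2 * W)) (by omega) 𝒢 h𝒢 hconn) (by omega)
    (by omega) (by
      calc 2 = 2 ^ 1 := by norm_num
        _ ≤ 2 ^ m' := Nat.pow_le_pow_right (by norm_num) hm')
    (fun T T' => by
      have h1 := hdim1 T
      have h2 := hdim1 T'
      have h3 := finrank_range_prod_le (π T) (π T')
      omega) hcode hq he hcond hW0 hW4
    (K := ((Fin N0 × (Fin M → Fin Dn)) × Fin qh) × (ViewT N 𝒢 × Fin q1))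
    (fun k => J ∘ₗ (hs k.1).prod (ν k.2)) (by
      intro k
      refine ⟨T0 k.1.1, k.2.1, J ∘ₗ ((H (T0 k.1.1) k.1.2 ∘ₗ gv (T0 k.1.1) ∘ₗ
        LinearMap.fst (ZMod 2) X X).prod (E k.2.1 k.2.2 ∘ₗ gv k.2.1 ∘ₗ
        LinearMap.snd (ZMod 2) X X)), ?_⟩
      refine LinearMap.ext fun x => ?_
      have h1 := hgp (T0 k.1.1) x
      have h2 := hgp k.2.1 x
      change J (H (T0 k.1.1) k.1.2 (gv (T0 k.1.1) (π (T0 k.1.1) x)),
        E k.2.1 k.2.2 (gv k.2.1 (π k.2.1 x))) = J (H (T0 k.1.1) k.1.2 (pv (T0 k.1.1) x),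
        E k.2.1 k.2.2 (pv k.2.1 x))
      rw [h1, h2])
  refine ⟨ι, hι, τ, ν, hs, ?_, ?_, ?_, ?_⟩
  · refine hcard.trans (le_of_eq ?_)
    simp only [Fintype.card_prod, Fintype.card_fin, Fintype.card_pi, prod_const, card_univ]
  · -- losslessness
    exact lossless_comp (fun T x => π T x) hL1 (fun T => pv T) (fun T => jv T) hjv
      (fun T x => LinearMap.congr_fun (hjpv T) x) hq1 (fun T v y => E T v y) he1 hE
  · -- collisions
    intro x x' hxx
    have h1 := hp (x - x') (sub_ne_zero.2 hxx)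
    have hcΩ : (Fintype.card (Fin N0 × (Fin M → Fin Dn)) : ℝ) = N0 * (Dn : ℝ) ^ M := by
      simp [Fintype.card_prod]
    have h2 := collision_comp (kh := kh) hqh
      (univ.filter fun ij : Fin N0 × (Fin M → Fin Dn) =>
        N.view ∅ (fun v => (G0 ij.1 v, ij.2 v)) (x - x') = 0)
      (fun ij z => hs (ij, z) x) (fun ij z => hs (ij, z) x') (by
        intro ij h0
        have h4 : pv (T0 ij) (x - x') ≠ 0 := by
          intro h5
          apply h0
          rw [mem_filter]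
          refine ⟨mem_univ _, ?_⟩
          have h6 := LinearMap.congr_fun (hjpv (T0 ij)) (x - x')
          rw [LinearMap.comp_apply, h5, map_zero] at h6
          exact h6.symm
        refine le_trans (card_le_card fun z hz => ?_) (hH (T0 ij) _ h4)
        rw [mem_filter] at hz ⊢
        refine ⟨mem_univ _, ?_⟩
        have h5 : hs (ij, z) x = hs (ij, z) x' := hz.2
        have h6 : hs (ij, z) (x - x') = 0 := by rw [map_sub, h5, sub_self]
        exact h6) (p := p) (by rw [hcΩ]; exact h1)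
    rw [hcΩ] at h2
    exact h2
  · -- exactness
    intro B hB
    obtain ⟨U, hU1, hU2, hU3⟩ := hex B hB
    refine ⟨U, hU1, hU2, fun θ z => ?_⟩
    have h1 := hU3 (θ, z)
    refine push_injective hJ ?_
    rw [H653.push_push, H653.push_push]
    exact h1

end tree

end Vale.Agent.P318.H918
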